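import Vale.Agent.P193.Bh.Group.Perm.Cones
import Vale.Agent.P193.Bh.Group.Defs

/-!
# P193: the action of Thompson's group on the eventually zero words

The action is transitive on tuples of distinct points, only the identity moves finitely many points,
and the stabilisers of finite sets are finitely generated if the group is: a standard stabiliser is
generated by one shift at each point and a compressed copy of the group.
-/

namespace Vale.Agent.P193.Bh.V

open Vale.Agent.P193.Fp
open scoped Pointwise

/-- The zero word. -/
def zeros : Seq := fun _ => false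

theorem app_replicate_zeros : ∀ n, app (List.replicate n false) zeros = zeros
  | 0 => rfl
  | n + 1 => by
    rw [List.replicate_succ, app_cons, app_replicate_zeros n]
    funext i; cases i <;> rfl

/-- A point: an eventually zero word. -/
def EvZero (s : Seq) : Prop := ∃ p, s = app p zeros

theorem EvZero.exists_stake {s : Seq} (h : EvZero s) :
    ∃ n, ∀ m, n ≤ m → s = app (stake m s) zeros := by
  obtain ⟨p, rfl⟩ := h
  refine ⟨p.length, fun m hm => ?_⟩
  obtain ⟨k, rfl⟩ := Nat.exists_eq_add_of_le hm
  have e : app p zeros = app (p ++ List.replicate k false) zeros := by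
    rw [app_append, app_replicate_zeros]
  have hl : p.length + k = (p ++ List.replicate k false).length := by simp
  nth_rewrite 2 [e]
  rw [hl, stake_app, ← e]

theorem EvZero.app {s : Seq} (h : EvZero s) (p : List Bool) : EvZero (Fp.app p s) := by
  obtain ⟨r, rfl⟩ := h
  exact ⟨p ++ r, (app_append p r zeros).symm⟩

theorem EvZero.tail {p : List Bool} {t : Seq} (h : EvZero (Fp.app p t)) : EvZero t := by
  obtain ⟨n, hn⟩ := h.exists_stake
  have e := hn (p.length + n) (Nat.le_add_left n _)
  obtain ⟨r, -, hr⟩ := app_eq_prefix (p := p) (q := stake (p.length + n) (Fp.app p t))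
    (by rw [length_stake]; omega) e
  exact ⟨r, hr⟩

theorem evZero_swp {p q : List Bool} (h : Inc p q) {s : Seq} (hs : EvZero s) :
    EvZero (swp h s) := by
  by_cases hp : Pre p s
  · obtain ⟨t, rfl⟩ := hp; rw [swp_left]; exact hs.tail.app q
  by_cases hq : Pre q s
  · obtain ⟨t, rfl⟩ := hq; rw [swp_right]; exact hs.tail.app p
  rw [swp_out h hp hq]; exact hs

theorem evZero_mem {x : Equiv.Perm Seq} (hx : x ∈ thompson) :
    ∀ s, EvZero s → EvZero (x s) := by
  refine induction_left (motive := fun x => ∀ s, EvZero s → EvZero (x s)) (fun s h => h)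
    (fun p q h y _ ih s hs => ?_) hx
  exact evZero_swp h (ih s hs)

/-- The points. -/
def Pts : Type := {s : Seq // EvZero s}

noncomputable instance : MulAction thompson Pts where
  smul x s := ⟨x.1 s.1, evZero_mem x.2 _ s.2⟩
  one_smul _ := Subtype.ext rfl
  mul_smul _ _ _ := Subtype.ext rfl

theorem smul_val (x : thompson) (s : Pts) : (x • s).1 = x.1 s.1 := rfl

theorem infinite_pts : Infinite Pts := by
  refine Infinite.of_injective (fun n => (⟨app (List.replicate n true ++ [true]) zeros, _, rfl⟩ :
    Pts)) fun a b h => ?_
  have h' := congrArg Subtype.val h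
  simp only [← List.replicate_succ'] at h'
  have key : ∀ n i, app (List.replicate n true) zeros i = decide (i < n) := by
    intro n
    induction n with
    | zero => intro i; simp [zeros]
    | succ n ih => intro i; cases i <;> simp [List.replicate_succ, scons, ih]
  by_contra hne
  rcases Nat.lt_or_gt_of_ne hne with hlt | hlt
  · have := congrFun h' (a + 1); rw [key, key] at this; simp at this; omega
  · have := congrFun h' (b + 1); rw [key, key] at this; simp at this; omega

/-- Two points can be exchanged fixing any finitely many others. -/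
theorem exists_swap_points {a b : Pts} (hab : a ≠ b) (F : Finset Pts) (ha : a ∉ F) (hb : b ∉ F) :
    ∃ x : thompson, x • a = b ∧ ∀ c ∈ F, x • c = c := by
  classical
  obtain ⟨na, hna⟩ := a.2.exists_stake
  obtain ⟨nb, hnb⟩ := b.2.exists_stake
  choose nc hnc using fun c : Pts => c.2.exists_stake
  set n := max (max na nb) (F.sup nc)
  have hinj : ∀ c d : Pts, c.1 = app (stake n c.1) zeros → d.1 = app (stake n d.1) zeros →
      stake n c.1 = stake n d.1 → c = d := fun c d hc hd e => Subtype.ext (by rw [hc, hd, e])
  have hA := hna n (by omega)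
  have hB := hnb n (by omega)
  have h : Inc (stake n a.1) (stake n b.1) := incomp_of_length (by simp)
    fun e => hab (hinj a b hA hB e)
  refine ⟨⟨swp h, swp_mem h⟩, Subtype.ext ?_, fun c hc => Subtype.ext ?_⟩
  · change swp h a.1 = b.1
    exact (congrArg (swp h) hA).trans ((swp_left h zeros).trans hB.symm)
  · change swp h c.1 = c.1
    have hC := hnc c n (le_max_of_le_right (Finset.le_sup hc))
    refine swp_out h (fun hp => ha ?_) (fun hp => hb ?_)
    · rwa [hinj a c hA hC (by simpa using (pre_iff.1 hp).symm)]
    · rwa [hinj b c hB hC (by simpa using (pre_iff.1 hp).symm)]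

theorem transitive_pts (k : ℕ) (f g : Fin k ↪ Pts) : ∃ x : thompson, ∀ i, x • f i = g i := by
  classical
  induction k with
  | zero => exact ⟨1, fun i => i.elim0⟩
  | succ k ih =>
    obtain ⟨x, hx⟩ := ih (Fin.castSuccEmb.trans f) (Fin.castSuccEmb.trans g)
    by_cases he : x • f (Fin.last k) = g (Fin.last k)
    · exact ⟨x, fun i => Fin.lastCases he hx i⟩
    obtain ⟨y, hy, hfix⟩ := exists_swap_points he
      (Finset.univ.image fun i : Fin k => g i.castSucc) (fun hm => by
        obtain ⟨i, -, hi⟩ := Finset.mem_image.1 hm
        rw [← show x • f i.castSucc = g i.castSucc from hx i] at hi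
        have := f.injective (smul_left_cancel x hi)
        exact Fin.castSucc_lt_last i |>.ne this) (fun hm => by
        obtain ⟨i, -, hi⟩ := Finset.mem_image.1 hm
        exact Fin.castSucc_lt_last i |>.ne (g.injective hi))
    refine ⟨y * x, fun i => ?_⟩
    rw [mul_smul]
    refine Fin.lastCases hy (fun j => ?_) i
    rw [show x • f j.castSucc = g j.castSucc from hx j]
    exact hfix _ (Finset.mem_image_of_mem _ (Finset.mem_univ j))

theorem fix_unique {r : List Bool} (hr : r ≠ []) {t t' : Seq} (h : t = app r t)
    (h' : t' = app r t') : t = t' := by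
  funext i
  induction i using Nat.strong_induction_on with
  | _ i ih =>
    have hl := List.length_pos_iff.2 hr
    rcases Nat.lt_or_ge i r.length with hi | hi
    · rw [h, h']
      have : ∀ (r : List Bool) (i : ℕ), i < r.length → ∀ t t' : Seq, app r t i = app r t' i := by
        intro r
        induction r with
        | nil => intro i hi; simp at hi
        | cons b r ihr =>
          intro i hi t t'
          cases i with
          | zero => rfl
          | succ i => exact ihr i (by simpa using hi) t t'
      exact this r i hi t t'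
    · obtain ⟨j, rfl⟩ := Nat.exists_eq_add_of_le hi
      have e : ∀ u : Seq, app r u (r.length + j) = u j := fun u => congrFun (sdrop_app r u) j
      rw [h, h', e, e, ih j (by omega)]

/-- Only the identity moves finitely many points. -/
theorem no_finitary_pts (x : thompson) (h : {c : Pts | x • c ≠ c}.Finite) : x = 1 := by
  obtain ⟨n, hn⟩ := exists_tab x.2
  refine Subtype.ext (Equiv.ext fun s => ?_)
  obtain ⟨q, hq⟩ := hn (stake n s) (length_stake n s)
  suffices hpq : q = stake n s by
    rw [← app_stake n s, hq, hpq]; rfl
  by_contra hne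
  have hfix : ∀ t t', app (stake n s) t = app q t → app (stake n s) t' = app q t' → t = t' := by
    intro t t' e e'
    rcases Nat.le_total (stake n s).length q.length with hl | hl
    · obtain ⟨r, rfl, h1⟩ := app_eq_prefix hl e
      obtain ⟨r', hr', h2⟩ := app_eq_prefix hl e'
      cases List.append_cancel_left hr'
      exact fix_unique (fun e => hne (by rw [e, List.append_nil])) h1 h2
    · obtain ⟨r, hr, h1⟩ := app_eq_prefix hl e.symm
      obtain ⟨r', hr', h2⟩ := app_eq_prefix hl e'.symm
      obtain rfl := List.append_cancel_left (hr ▸ hr')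
      exact fix_unique (fun e => hne (by rw [hr, e, List.append_nil])) h1 h2
  let put : Pts → Pts := fun c => ⟨app (stake n s) c.1, c.2.app _⟩
  have hput : Function.Injective put := fun c d e =>
    Subtype.ext (app_inj_right (congrArg Subtype.val e))
  have := infinite_pts
  have hsub : ((put ⁻¹' {c : Pts | x • c ≠ c})ᶜ).Subsingleton := by
    intro c hc d hd
    simp only [Set.mem_compl_iff, Set.mem_preimage, Set.mem_setOf_eq, not_not] at hc hd
    refine Subtype.ext (hfix _ _ ?_ ?_)
    · exact (congrArg Subtype.val hc).symm.trans (hq c.1)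
    · exact (congrArg Subtype.val hd).symm.trans (hq d.1)
  exact Set.infinite_univ (Set.union_compl_self (put ⁻¹' {c : Pts | x • c ≠ c}) ▸
    (h.preimage hput.injOn).union hsub.finite)

/-! ## Compressed copies -/

open Classical in
/-- `x` compressed into the cone at `u`. -/
noncomputable def pushFun (u : List Bool) (x : Equiv.Perm Seq) (s : Seq) : Seq :=
  if Pre u s then app u (x (sdrop u.length s)) else s

theorem pushFun_app (u : List Bool) (x : Equiv.Perm Seq) (t : Seq) :
    pushFun u x (app u t) = app u (x t) := by
  rw [pushFun, if_pos (pre_app u t), sdrop_app]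

theorem pushFun_out {u : List Bool} (x : Equiv.Perm Seq) {s : Seq} (h : ¬Pre u s) :
    pushFun u x s = s := if_neg h

theorem pushFun_mul (u : List Bool) (x y : Equiv.Perm Seq) (s : Seq) :
    pushFun u (x * y) s = pushFun u x (pushFun u y s) := by
  by_cases h : Pre u s
  · obtain ⟨t, rfl⟩ := h; simp only [pushFun_app, Equiv.Perm.mul_apply]
  · rw [pushFun_out _ h, pushFun_out _ h, pushFun_out _ h]

theorem pushFun_one (u : List Bool) (s : Seq) : pushFun u 1 s = s := by
  by_cases h : Pre u s
  · obtain ⟨t, rfl⟩ := h; rw [pushFun_app]; rfl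
  · rw [pushFun_out _ h]

/-- Compression into the cone at `u`. -/
noncomputable def push (u : List Bool) : Equiv.Perm Seq →* Equiv.Perm Seq where
  toFun x :=
    { toFun := pushFun u x
      invFun := pushFun u x⁻¹
      left_inv := fun s => by rw [← pushFun_mul, inv_mul_cancel, pushFun_one]
      right_inv := fun s => by rw [← pushFun_mul, mul_inv_cancel, pushFun_one] }
  map_one' := Equiv.ext (pushFun_one u)
  map_mul' x y := Equiv.ext (pushFun_mul u x y)

theorem push_app (u : List Bool) (x : Equiv.Perm Seq) (t : Seq) :
    push u x (app u t) = app u (x t) := pushFun_app u x t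

theorem push_out {u : List Bool} (x : Equiv.Perm Seq) {s : Seq} (h : ¬Pre u s) :
    push u x s = s := pushFun_out x h

theorem push_swp (u : List Bool) {p q : List Bool} (h : Inc p q) :
    push u (swp h) = swp (h.push u) := by
  ext1 s
  by_cases hu : Pre u s
  · obtain ⟨t, rfl⟩ := hu
    rw [push_app]
    by_cases hp : Pre p t
    · obtain ⟨r, rfl⟩ := hp
      rw [swp_left, ← app_append, ← app_append, swp_left]
    by_cases hq : Pre q t
    · obtain ⟨r, rfl⟩ := hq
      rw [swp_right, ← app_append, ← app_append, swp_right]
    rw [swp_out h hp hq, swp_out]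
    · rintro ⟨r, e⟩; rw [app_append] at e; exact hp ⟨r, app_inj_right e⟩
    · rintro ⟨r, e⟩; rw [app_append] at e; exact hq ⟨r, app_inj_right e⟩
  · rw [push_out _ hu, swp_out _ (fun e => hu (e.of_prefix (List.prefix_append u p)))
      (fun e => hu (e.of_prefix (List.prefix_append u q)))]

theorem push_mem (u : List Bool) {x : Equiv.Perm Seq} (hx : x ∈ thompson) :
    push u x ∈ thompson := by
  refine induction_left (motive := fun x => push u x ∈ thompson)
    (by rw [map_one]; exact thompson.one_mem) (fun p q h y _ ih => ?_) hx
  rw [map_mul, push_swp]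
  exact thompson.mul_mem (swp_mem _) ih

/-! ## Standard stabilisers -/

/-- The words `1^i 0`. -/
def wd (i : ℕ) : List Bool := List.replicate i true ++ [false]

/-- The spare word `1^k`. -/
def spare (k : ℕ) : List Bool := List.replicate k true

/-- The standard points `1^i 0^∞`. -/
def stdPt (i : ℕ) : Pts := ⟨app (wd i) zeros, _, rfl⟩

theorem inc_wd_spare {i k : ℕ} (h : i < k) : Inc (wd i) (spare k) := by
  obtain ⟨d, rfl⟩ := Nat.exists_eq_add_of_le h
  have e : spare (i.succ + d) = List.replicate i true ++ ([true] ++ List.replicate d true) := by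
    simp [spare, Nat.succ_add_eq_add_succ, List.replicate_add, List.replicate_succ]
  rw [e, wd]
  exact Inc.push (by simp [Inc]) _

theorem inc_wd {i j : ℕ} (h : i ≠ j) : Inc (wd i) (wd j) := by
  rcases Nat.lt_or_gt_of_ne h with hlt | hlt
  · simpa [wd, spare] using (inc_wd_spare hlt).append [] [false]
  · simpa [wd, spare] using ((inc_wd_spare hlt).append [] [false]).symm

theorem wd_cover : ∀ (k : ℕ) (s : Seq), Pre (spare k) s ∨ ∃ i < k, Pre (wd i) s
  | 0, s => Or.inl ⟨s, rfl⟩
  | k + 1, s => by
    rcases wd_cover k s with ⟨t, rfl⟩ | ⟨i, hi, h⟩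
    · rcases Bool.eq_false_or_eq_true (t 0) with e | e
      · exact Or.inl ⟨sdrop 1 t, by
          rw [spare, spare, List.replicate_succ', app_append, app_cons, app_nil, ← e, scons_eta]⟩
      · exact Or.inr ⟨k, Nat.lt_succ_self k, sdrop 1 t, by
          rw [wd, spare, app_append, app_cons, app_nil, ← e, scons_eta]⟩
    · exact Or.inr ⟨i, by omega, h⟩

theorem pre_wd_split {w : List Bool} {t : Seq} :
    app w t = app (w ++ [t 0]) (sdrop 1 t) := by
  rw [app_append, app_cons, app_nil, scons_eta]

/-- The shift at `w` which uses the spare cone `u`: `w t ↦ w 0 t`, `u 0 t ↦ w 1 t`, `u 1 t ↦ u t`. -/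
noncomputable def shift {w u : List Bool} (h : Inc w u) : Equiv.Perm Seq :=
  swp (show Inc u (w ++ [true]) by simpa using (h.append [true] []).symm) *
    swp (show Inc u (w ++ [false]) by simpa using (h.append [false] []).symm) * swp h.symm

theorem shift_mem {w u : List Bool} (h : Inc w u) : shift h ∈ thompson :=
  thompson.mul_mem (thompson.mul_mem (swp_mem _) (swp_mem _)) (swp_mem _)

theorem shift_app {w u : List Bool} (h : Inc w u) (t : Seq) :
    shift h (app w t) = app (w ++ [false]) t := by
  simp only [shift, Equiv.Perm.mul_apply]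
  rw [swp_right, swp_left, swp_out _ (h.symm.not_pre ((pre_app (w ++ [false]) t).of_prefix
    (List.prefix_append w [false]))) ((inc_siblings w).symm.not_pre (pre_app (w ++ [false]) t))]

theorem shift_out {w u : List Bool} (h : Inc w u) {s : Seq} (hw : ¬Pre w s) (hu : ¬Pre u s) :
    shift h s = s := by
  simp only [shift, Equiv.Perm.mul_apply]
  rw [swp_out _ hu hw, swp_out _ hu fun e => hw (e.of_prefix (List.prefix_append _ _)),
    swp_out _ hu fun e => hw (e.of_prefix (List.prefix_append _ _))]

theorem shift_pow_app {w u : List Bool} (h : Inc w u) :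
    ∀ (n : ℕ) (t : Seq), (shift h ^ n) (app w t) = app (w ++ List.replicate n false) t
  | 0, t => by simp
  | n + 1, t => by
    rw [pow_succ', Equiv.Perm.mul_apply, shift_pow_app h n, app_append, shift_app,
      ← app_append, List.append_assoc, List.singleton_append, ← List.replicate_succ]

theorem pow_fix {x : Equiv.Perm Seq} {s : Seq} (h : x s = s) : ∀ n : ℕ, (x ^ n) s = s
  | 0 => rfl
  | n + 1 => by rw [pow_succ, Equiv.Perm.mul_apply, h, pow_fix h n]

/-- The generators of the standard stabiliser together with all compressed elements. -/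
noncomputable def stabGen (k : ℕ) : Subgroup thompson :=
  Subgroup.closure (Set.range fun i : Fin k =>
    (⟨shift (inc_wd_spare i.2), shift_mem _⟩ : thompson)) ⊔
    (⊤ : Subgroup thompson).map
      (((push (spare k)).comp thompson.subtype).codRestrict thompson fun x => push_mem _ x.2)

/-- The standard stabiliser. -/
def stdFix (k : ℕ) : Subgroup thompson where
  carrier := {x | ∀ i, i < k → x • stdPt i = stdPt i}
  one_mem' := fun i _ => one_smul _ _
  mul_mem' := fun {x y} hx hy i hi => by rw [mul_smul, hy i hi, hx i hi]
  inv_mem' := fun {x} hx i hi => by rw [inv_smul_eq_iff, hx i hi]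

theorem stabGen_le (k : ℕ) : stabGen k ≤ stdFix k := by
  refine sup_le ((Subgroup.closure_le _).2 ?_) (Subgroup.map_le_iff_le_comap.2 fun x _ => ?_)
  · rintro _ ⟨j, rfl⟩ i hi
    refine Subtype.ext ?_
    change shift (inc_wd_spare j.2) (app (wd i) zeros) = app (wd i) zeros
    by_cases hij : i = j.1
    · subst hij
      rw [shift_app, app_append]
      congr 1
      exact app_replicate_zeros 1
    · exact shift_out (inc_wd_spare j.2) ((inc_wd (Ne.symm hij)).not_pre (pre_app _ _))
        ((inc_wd_spare hi).symm.not_pre (pre_app _ _))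
  · intro i hi
    refine Subtype.ext ?_
    exact push_out x.1 ((inc_wd_spare hi).symm.not_pre (pre_app _ _))

theorem pre_prod_one {ι : Type*} (l : List ι) (f : ι → Equiv.Perm Seq) {s : Seq}
    (h : ∀ i ∈ l, f i s = s) : (l.map f).prod s = s := by
  induction l with
  | nil => rfl
  | cons a l ih =>
    simp only [List.forall_mem_cons] at h
    rw [List.map_cons, List.prod_cons, Equiv.Perm.mul_apply, ih h.2, h.1]

theorem pre_prod_single {ι : Type*} (l : List ι) (hl : l.Nodup) (f : ι → Equiv.Perm Seq) {a : ι}
    (ha : a ∈ l) {s s' : Seq} (he : f a s = s') (h : ∀ i ∈ l, i ≠ a → f i s = s ∧ f i s' = s') :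
    (l.map f).prod s = s' := by
  induction l with
  | nil => simp at ha
  | cons b l ih =>
    rw [List.nodup_cons] at hl
    simp only [List.forall_mem_cons] at h
    rw [List.map_cons, List.prod_cons, Equiv.Perm.mul_apply]
    by_cases hb : a = b
    · subst hb
      rw [pre_prod_one l f fun i hi => (h.2 i hi fun e => hl.1 (e ▸ hi)).1, he]
    · rw [ih hl.2 ((List.mem_cons.1 ha).resolve_left hb) h.2, (h.1 (Ne.symm hb)).2]

theorem stdFix_le (k : ℕ) : stdFix k ≤ stabGen k := by
  intro x hx
  classical
  obtain ⟨n, hn⟩ := exists_tab x.2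
  -- near each fixed point `x` is a power of the shift
  have hloc : ∀ i : Fin k, ∃ M m : ℕ, ∀ t,
      x.1 (app (wd i ++ List.replicate M false) t) = app (wd i ++ List.replicate m false) t := by
    intro i
    obtain ⟨q, hq⟩ := hn.mono (show n ≤ (wd i ++ List.replicate n false).length by simp) _ rfl
    refine ⟨n + (wd i).length, q.length, fun t => ?_⟩
    have he : app q zeros = app (wd i) zeros := by
      have h0 := congrArg Subtype.val (hx i i.2)
      rw [smul_val] at h0
      rw [← hq, app_append, app_replicate_zeros]
      exact h0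
    have he' : app (q ++ List.replicate (wd i).length false) zeros =
        app (wd i ++ List.replicate q.length false) zeros := by
      rw [app_append, app_append, app_replicate_zeros, app_replicate_zeros, he]
    have hw := (app_inj_of_length (by simp [Nat.add_comm]) he').1
    rw [List.replicate_add, ← List.append_assoc, app_append, hq, ← app_append, hw]
  choose M m hMm using hloc
  set N := ∑ i, (M i + 1) with hN
  have hMN : ∀ i, M i ≤ N := fun i =>
    (Nat.le_succ _).trans (Finset.single_le_sum (f := fun i => M i + 1) (fun _ _ => Nat.zero_le _)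
      (Finset.mem_univ i))
  set H : Fin k → thompson := fun i => ⟨shift (inc_wd_spare i.2), shift_mem _⟩
  have hHmem : ∀ i, H i ∈ stabGen k := fun i =>
    Subgroup.mem_sup_left (Subgroup.subset_closure ⟨i, rfl⟩)
  set a := ((List.finRange k).map fun i => H i ^ (M i + (N - M i))).prod with ha
  set b := ((List.finRange k).map fun i => H i ^ (m i + (N - M i))).prod with hb
  have hmema : a ∈ stabGen k := Subgroup.list_prod_mem _ fun y hy => by
    obtain ⟨i, -, rfl⟩ := List.mem_map.1 hy; exact Subgroup.pow_mem _ (hHmem i) _
  have hmemb : b ∈ stabGen k := Subgroup.list_prod_mem _ fun y hy => by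
    obtain ⟨i, -, rfl⟩ := List.mem_map.1 hy; exact Subgroup.pow_mem _ (hHmem i) _
  have hprod : ∀ (e : Fin k → ℕ) (i : Fin k) (t : Seq),
      (((List.finRange k).map fun j => H j ^ e j).prod).1 (app (wd i) t) =
        app (wd i ++ List.replicate (e i) false) t := by
    intro e i t
    rw [SubmonoidClass.coe_list_prod, List.map_map]
    refine pre_prod_single _ (List.nodup_finRange k) _ (List.mem_finRange i)
      (by simpa [Function.comp, H] using shift_pow_app (inc_wd_spare i.2) (e i) t) fun j _ hj => ?_
    have hne : (j : ℕ) ≠ i := fun h => hj (Fin.ext h)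
    constructor <;>
    · simp only [Function.comp, H, SubmonoidClass.coe_pow]
      refine pow_fix (shift_out _ ((inc_wd hne).not_pre ?_)
        ((inc_wd_spare i.2).symm.not_pre ?_)) _
      all_goals first | exact pre_app _ _ | exact (pre_app _ t).of_prefix (List.prefix_append _ _)
  -- `y` fixes every cone at a `wd i`
  set y := b⁻¹ * x * a with hy
  have hyfix : ∀ (i : Fin k) (t : Seq), y.1 (app (wd i) t) = app (wd i) t := by
    intro i t
    simp only [hy, Subgroup.coe_mul, Equiv.Perm.mul_apply, InvMemClass.coe_inv]
    rw [Equiv.Perm.inv_eq_iff_eq, ha, hprod, hb, hprod, List.replicate_add, List.replicate_add,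
      ← List.append_assoc, app_append, hMm, ← app_append, List.append_assoc]
  suffices hmemy : y ∈ stabGen k by
    have : x = b * y * a⁻¹ := by rw [hy]; group
    rw [this]
    exact Subgroup.mul_mem _ (Subgroup.mul_mem _ hmemb hmemy) (Subgroup.inv_mem _ hmema)
  -- so it is a compressed element
  have hcone : ∀ s, Pre (spare k) (y.1 (app (spare k) s)) := by
    intro s
    rcases wd_cover k (y.1 (app (spare k) s)) with h | ⟨i, hi, t, e⟩
    · exact h
    · have := y.1.injective (e.trans (hyfix ⟨i, hi⟩ t).symm)
      exact absurd ⟨t, this⟩ ((inc_wd_spare hi).not_pre (pre_app _ s))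
  have hcone' : ∀ s, Pre (spare k) (y.1⁻¹ (app (spare k) s)) := by
    intro s
    rcases wd_cover k (y.1⁻¹ (app (spare k) s)) with h | ⟨i, hi, t, e⟩
    · exact h
    · have := congrArg y.1 e
      rw [hyfix ⟨i, hi⟩, ← Equiv.Perm.mul_apply, mul_inv_cancel, Equiv.Perm.one_apply] at this
      exact absurd ⟨t, this⟩ ((inc_wd_spare hi).not_pre (pre_app _ s))
  choose z hz using hcone
  choose z' hz' using hcone'
  let Z : Equiv.Perm Seq :=
    { toFun := z
      invFun := z'
      left_inv := fun s => app_inj_right (p := spare k) (by
        rw [← hz', ← hz, Equiv.Perm.inv_eq_iff_eq])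
      right_inv := fun s => app_inj_right (p := spare k) (by
        rw [← hz, ← hz', ← Equiv.Perm.mul_apply, mul_inv_cancel, Equiv.Perm.one_apply]) }
  obtain ⟨ny, hny⟩ := exists_tab y.2
  have hZ : Z ∈ thompson := by
    refine mem_of_tab (n := ny + (spare k).length) fun p hp => ?_
    obtain ⟨q, hq⟩ := hny.mono (show ny ≤ (spare k ++ p).length by simp; omega) _ rfl
    -- the image cone lies below the spare word
    have hqu : spare k <+: q := by
      by_contra hnp
      rcases (Pre.comparable (pre_app (spare k) (z (app p zeros)))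
        (q := q) ⟨zeros, by rw [← hz, ← app_append, hq]⟩) with h | h
      · exact hnp h
      · obtain ⟨r, hr⟩ := h
        cases r with
        | nil => rw [List.append_nil] at hr; exact hnp (hr ▸ List.prefix_rfl)
        | cons c r =>
          have e : app (spare k) (z (app p (fun _ => !c))) = app q fun _ => !c := by
            rw [← hz, ← app_append, hq]
          rw [← hr, app_append, app_cons] at e
          exact absurd (congrFun (app_inj_right e) 0) (by cases c <;> simp [scons])
    obtain ⟨r, rfl⟩ := hqu
    exact ⟨r, fun t => app_inj_right (p := spare k) (by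
      change app (spare k) (z (app p t)) = _
      rw [← hz, ← app_append, hq, app_append])⟩
  refine Subgroup.mem_sup_right ⟨⟨Z, hZ⟩, trivial, Subtype.ext (Equiv.ext fun s => ?_)⟩
  change push (spare k) Z s = y.1 s
  rcases wd_cover k s with ⟨t, rfl⟩ | ⟨i, hi, t, rfl⟩
  · rw [push_app, hz]; rfl
  · rw [push_out _ ((inc_wd_spare hi).symm.not_pre (pre_app _ t)), hyfix ⟨i, hi⟩]

theorem fg_map {G H : Type*} [Group G] [Group H] {K : Subgroup G} (h : K.FG) (f : G →* H) :
    (K.map f).FG := by
  obtain ⟨s, hs, hfin⟩ := (Subgroup.fg_iff K).1 h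
  exact (Subgroup.fg_iff _).2 ⟨f '' s, by rw [← MonoidHom.map_closure, hs], hfin.image f⟩

/-- A finitely presented group is finitely generated. -/
theorem fg_of_fp {G : Type*} [Group G] (h : Group.IsFinitelyPresented G) : Group.FG G := by
  obtain ⟨n, φ, hφ, -⟩ := h.out
  exact Group.fg_of_surjective hφ

/-- Stabilisers of finite sets are finitely generated if the group is. -/
theorem stab_fg [Group.FG thompson] (F : Finset Pts) :
    (fixingSubgroup thompson (F : Set Pts)).FG := by
  have hg : (stdFix F.card).FG := by
    rw [le_antisymm (stdFix_le _) (stabGen_le _)]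
    exact (Subgroup.fg_iff _ |>.2 ⟨_, rfl, Set.finite_range _⟩).sup
      (fg_map (Group.fg_def.1 ‹_›) _)
  let f : Fin F.card ↪ Pts := ⟨fun i => stdPt i, fun i j h => by
    by_contra hne
    have h' := congrArg Subtype.val h
    exact (inc_wd (fun e => hne (Fin.ext e))).not_pre ⟨zeros, h'⟩ (pre_app _ zeros)⟩
  let g : Fin F.card ↪ Pts := F.equivFin.symm.toEmbedding.trans (Function.Embedding.subtype _)
  obtain ⟨c, hc⟩ := transitive_pts F.card f g
  have : fixingSubgroup thompson (F : Set Pts) =
      (stdFix F.card).map (MulAut.conj c).toMonoidHom := by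
    ext x
    rw [mem_fixingSubgroup_iff, Subgroup.mem_map]
    constructor
    · intro hx
      refine ⟨c⁻¹ * x * c, fun i hi => ?_, by simp [mul_assoc]⟩
      have h1 := hc ⟨i, hi⟩
      change c • stdPt i = g ⟨i, hi⟩ at h1
      rw [mul_smul, mul_smul, h1, hx (g ⟨i, hi⟩) (F.equivFin.symm ⟨i, hi⟩).2, inv_smul_eq_iff, h1]
    · rintro ⟨y, hy, rfl⟩ p hp
      obtain ⟨i, hi⟩ : ∃ i, g i = p := ⟨F.equivFin ⟨p, hp⟩, by simp [g]⟩
      have hy' : y • f i = f i := hy i.1 i.2
      simp only [MulEquiv.coe_toMonoidHom, MulAut.conj_apply, mul_smul]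
      rw [← hi, ← hc i, inv_smul_smul, hy']
  rw [this]
  exact fg_map hg _

/-- The permutation data, given a finite presentation of Thompson's group. -/
noncomputable def permData (hfp : Group.IsFinitelyPresented thompson) : PermData :=
  haveI : Group.FG thompson := fg_of_fp hfp
  { S := Pts
    P := thompson
    infinite := infinite_pts
    fp := hfp
    transitive := transitive_pts
    stab_fg := fun F => stab_fg F
    no_finitary := no_finitary_pts }

end Vale.Agent.P193.Bh.V
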