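import Vale.Agent.P193.Bh.Group.Perm.Stab
import Vale.Agent.P193.Fp.Kernel

/-!
# P193: Thompson's group as the group of a box system over a point
-/

namespace Vale.Agent.P193.Bh.V

open Vale.Agent.P193.Fp

/-- A homomorphism onto Thompson's group from the group of a box system over a point. -/
theorem exists_iso {Y Q G : Type} [TopologicalSpace Y] [CompactSpace Y] [Group Q] [MulAction Q Y]
    [ContinuousConstSMul Q Y] [Unique Y] [Subsingleton Q] [Group G] (S : BoxSystem Y Q G) :
    Nonempty (G ≃* thompson) := by
  classical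
  have hE : Effective Y Q := fun g _ _ _ => Subsingleton.elim g 1
  let e : Pt Y ≃ Seq := Equiv.uniqueProd Seq Y
  let φ : G →* Equiv.Perm Seq := (e.permCongrHom.toMonoidHom).comp S.toPerm
  have hφ : Function.Injective φ :=
    e.permCongrHom.injective.comp (BoxSystem.toPerm_injective S hE)
  have hval : ∀ x s, φ x s = (S.toPerm x (default, s)).2 := fun x s => rfl
  have hU : ∀ U : TopologicalSpace.Clopens Y, U = ⊥ ∨ U = ⊤ := fun U => by
    by_cases h : default ∈ U
    · exact Or.inr (SetLike.ext fun y => by rw [Unique.eq_default y]; exact iff_of_true h trivial)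
    · exact Or.inl (SetLike.ext fun y => by rw [Unique.eq_default y]; exact iff_of_false h id)
  have hel : ∀ p q (h : Inc p q), φ (S.el ⟨⊤, 1, p, q⟩) = swp h := by
    intro p q h
    have hv : Box.Valid (⟨⊤, 1, p, q⟩ : Box Y Q) := disjoint_cyl_iff.2 (Or.inr h)
    ext1 s
    rw [hval, S.toPerm_el _ hv]
    by_cases hp : Pre p s
    · obtain ⟨t, rfl⟩ := hp
      rw [swp_left, Box.move_dom ⟨⊤, (1 : Q), p, q⟩ (y := default) trivial t]
    by_cases hq : Pre q s
    · obtain ⟨t, rfl⟩ := hq
      rw [swp_right, Box.move_cod (b := ⟨⊤, (1 : Q), p, q⟩) hv (y := default) trivial t]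
    rw [swp_out h hp hq, Box.move_out]
    rintro (⟨-, hh⟩ | ⟨-, hh⟩)
    · exact hp hh
    · exact hq hh
  have hrange : φ.range = thompson := by
    refine le_antisymm ?_ ((Subgroup.closure_le _).2 ?_)
    · rw [MonoidHom.range_eq_map, ← S.generated, MonoidHom.map_closure, Subgroup.closure_le]
      rintro _ ⟨x, ⟨⟨U, g, p, q⟩, hv, rfl⟩, rfl⟩
      obtain rfl := Subsingleton.elim g 1
      rcases hU U with rfl | rfl
      · simp [BoxSystem.el_bot]
      · have h : Inc p q := by
          rcases disjoint_cyl_iff.1 (hv : Box.Valid _) with hd | hd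
          · exact absurd hd fun hd => Set.disjoint_left.1 hd (show default ∈ ((⊤ : TopologicalSpace.Clopens Y) : Set Y) from trivial)
              trivial
          · exact hd
        rw [hel p q h]; exact swp_mem h
    · rintro _ ⟨p, q, h, rfl⟩
      exact ⟨_, hel p q h⟩
  exact ⟨(MonoidHom.ofInjective hφ).trans (MulEquiv.subgroupCongr hrange)⟩

/-- The permutation data, given a finitely presented box system over a point. -/
noncomputable def permDataOfBox {Y Q G : Type} [TopologicalSpace Y] [CompactSpace Y] [Group Q]
    [MulAction Q Y] [ContinuousConstSMul Q Y] [Unique Y] [Subsingleton Q] [Group G]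
    (S : BoxSystem Y Q G) (hfp : Group.IsFinitelyPresented G) : PermData :=
  haveI := hfp
  permData (Group.IsFinitelyPresented.equiv (exists_iso S).some)

end Vale.Agent.P193.Bh.V
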