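import Vale.Agent.P193.Bh.Group.Perm.Conj
import Vale.Agent.P193.Bh.Group.Perm.OfBox
import Vale.Agent.P193.Bh.Group.Interface2

/-!
# P193: Thompson's group is finitely presented; the permutation data
-/

namespace Vale.Agent.P193.Bh.V

open Vale.Agent.P193.Fp TopologicalSpace

theorem toV_el : ∀ {p q : List Bool}, Pair p q → toV (el p q) = sw p q := by
  intro p q hb
  induction hn : tot p q using Nat.strong_induction_on generalizing p q with
  | _ n ih =>
    by_cases hs : p.length ≤ 5 ∧ q.length ≤ 5
    · rw [el_small hs, toV_e (isGen_of_pair hb hs)]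
    have hl := low_canon hb hs
    have hlt := hl.tot_lt hb
    rw [el_eq hb hs, map_mul, map_mul, toV_e hl.sig.isGen,
      ih _ (by omega) (hl.pair hb) rfl, sw_eq hl.inc, sw_eq (hl.pair hb).2.2, sw_eq hb.2.2,
      ← swp_conj_act hl.inc hb.2.2 (hl.acts hb) (hl.symm.acts hb.symm)]
    simp only [← mul_assoc, swp_mul_self, one_mul]
    rw [mul_assoc, swp_mul_self, mul_one]

/-- The exchange of two words, expanded by `k` further letters. -/
noncomputable def elW : ℕ → List Bool → List Bool → Grp
  | 0, p, q => el p q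
  | k + 1, p, q => elW k (p ++ [false]) (q ++ [false]) * elW k (p ++ [true]) (q ++ [true])

/-- Long enough after `k` expansions. -/
def Big (k : ℕ) (p : List Bool) : Prop := 4 ≤ p.length + k

theorem Big.snoc {k : ℕ} {p : List Bool} (h : Big (k + 1) p) (b : Bool) : Big k (p ++ [b]) := by
  unfold Big at *; simp; omega

theorem inc_snoc {p q : List Bool} (h : Inc p q) (a b : Bool) : Inc (p ++ [a]) (q ++ [b]) :=
  h.append [a] [b]

theorem elW_comm : ∀ k {p q p' q' : List Bool}, Big k p → Big k q → Big k p' → Big k q' →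
    Inc p q → Inc p' q' → Inc p p' → Inc p q' → Inc q p' → Inc q q' →
      Commute (elW k p q) (elW k p' q')
  | 0, p, q, p', q', hp, hq, hp', hq', h1, h2, a, b, c, d => by
    unfold Big at *
    have hb : Pair p q := ⟨by omega, by omega, h1⟩
    have hb' : Pair p' q' := ⟨by omega, by omega, h2⟩
    have hr := el_rel [p, q, p', q'] [(p, q), (p', q'), (p, q), (p', q')] (by simp) (by simp)
      (by simp [hb.1, hb.2.1, hb'.1, hb'.2.1])
      (by simp [h1, h2, a, b, c, d, h1.symm, h2.symm, a.symm, b.symm, c.symm, d.symm])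
      (by
        simp only [List.forall_mem_cons]
        have k1 : ∀ x ∈ [p, q, p', q'], ∃ u ∈ [p, q, p', q'], ∃ r : List Bool,
            r.length ≤ 1 ∧ x = u ++ r := fun x hx => ⟨x, hx, [], by simp, by simp⟩
        exact ⟨⟨h1, k1 p (by simp), k1 q (by simp)⟩, ⟨h2, k1 p' (by simp), k1 q' (by simp)⟩,
          ⟨h1, k1 p (by simp), k1 q (by simp)⟩, ⟨h2, k1 p' (by simp), k1 q' (by simp)⟩, by simp⟩)
      (by
        have ap : Acts p q p' := Or.inr (Or.inr ⟨a, c⟩)
        have aq : Acts p q q' := Or.inr (Or.inr ⟨b, d⟩)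
        have hc := swp_conj_act h1 h2 ap aq
        rw [swp_congr (act_inc h1 ap aq h2) h2 (act_fix a c) (act_fix b d)] at hc
        simp only [List.map_cons, List.map_nil, List.prod_cons, List.prod_nil, mul_one, sw_eq h1,
          sw_eq h2, ← mul_assoc, hc, swp_mul_self])
    simp only [List.map_cons, List.map_nil, List.prod_cons, List.prod_nil, mul_one] at hr
    have s1 : el p q * el p q = 1 := by
      have := el_rel [p, q] [(p, q), (p, q)] (by simp) (by simp) (by simp [hb.1, hb.2.1])
        (by simp [h1, h1.symm]) (by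
          simp only [List.forall_mem_cons]
          have k1 : ∀ x ∈ [p, q], ∃ u ∈ [p, q], ∃ r : List Bool,
              r.length ≤ 1 ∧ x = u ++ r := fun x hx => ⟨x, hx, [], by simp, by simp⟩
          exact ⟨⟨h1, k1 p (by simp), k1 q (by simp)⟩, ⟨h1, k1 p (by simp), k1 q (by simp)⟩,
            by simp⟩) (by simp [sw_eq h1, swp_mul_self])
      simpa using this
    have s2 : el p' q' * el p' q' = 1 := by
      have := el_rel [p', q'] [(p', q'), (p', q')] (by simp) (by simp) (by simp [hb'.1, hb'.2.1])
        (by simp [h2, h2.symm]) (by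
          simp only [List.forall_mem_cons]
          have k1 : ∀ x ∈ [p', q'], ∃ u ∈ [p', q'], ∃ r : List Bool,
              r.length ≤ 1 ∧ x = u ++ r := fun x hx => ⟨x, hx, [], by simp, by simp⟩
          exact ⟨⟨h2, k1 p' (by simp), k1 q' (by simp)⟩, ⟨h2, k1 p' (by simp), k1 q' (by simp)⟩,
            by simp⟩) (by simp [sw_eq h2, swp_mul_self])
      simpa using this
    change el p q * el p' q' = el p' q' * el p q
    have e1 := inv_eq_of_mul_eq_one_right s1
    have e2 := inv_eq_of_mul_eq_one_right s2
    calc el p q * el p' q' = (el p q * el p' q')⁻¹ :=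
          (inv_eq_of_mul_eq_one_right (by rw [mul_assoc]; exact hr)).symm
      _ = el p' q' * el p q := by rw [mul_inv_rev, e1, e2]
  | k + 1, p, q, p', q', hp, hq, hp', hq', h1, h2, a, b, c, d => by
    have go : ∀ x y, Commute (elW k (p ++ [x]) (q ++ [x])) (elW k (p' ++ [y]) (q' ++ [y])) :=
      fun x y => elW_comm k (hp.snoc x) (hq.snoc x) (hp'.snoc y) (hq'.snoc y) (inc_snoc h1 _ _)
        (inc_snoc h2 _ _) (inc_snoc a _ _) (inc_snoc b _ _) (inc_snoc c _ _) (inc_snoc d _ _)
    exact ((go false false).mul_right (go false true)).mul_left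
      ((go true false).mul_right (go true true))

/-- The two halves of an expanded exchange commute. -/
theorem elW_halves {k : ℕ} {p q p' q' : List Bool} (hp : Big (k + 1) p) (hq : Big (k + 1) q)
    (hp' : Big (k + 1) p') (hq' : Big (k + 1) q') (h : Inc p q) (h' : Inc p' q')
    (i1 : p = p' ∨ Inc p p') (i2 : p = q' ∨ Inc p q') (i3 : q = p' ∨ Inc q p')
    (i4 : q = q' ∨ Inc q q') {x y : Bool} (hxy : x ≠ y) :
    Commute (elW k (p ++ [x]) (q ++ [x])) (elW k (p' ++ [y]) (q' ++ [y])) := by
  have key : ∀ {a b : List Bool}, (a = b ∨ Inc a b) → Inc (a ++ [x]) (b ++ [y]) := by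
    rintro a b (rfl | h)
    · cases x <;> cases y <;> first | exact absurd rfl hxy | exact inc_siblings a |
        exact (inc_siblings a).symm
    · exact inc_snoc h _ _
  exact elW_comm k (hp.snoc x) (hq.snoc x) (hp'.snoc y) (hq'.snoc y) (inc_snoc h _ _)
    (inc_snoc h' _ _) (key i1) (key i2) (key i3) (key i4)

theorem elW_sq : ∀ k {p q : List Bool}, Big k p → Big k q → Inc p q →
    elW k p q * elW k p q = 1
  | 0, p, q, hp, hq, h => by
    unfold Big at *
    have := el_rel [p, q] [(p, q), (p, q)] (by simp) (by simp) (by simp; omega)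
      (by simp [h, h.symm]) (by
        simp only [List.forall_mem_cons]
        have k1 : ∀ x ∈ [p, q], ∃ u ∈ [p, q], ∃ r : List Bool,
            r.length ≤ 1 ∧ x = u ++ r := fun x hx => ⟨x, hx, [], by simp, by simp⟩
        exact ⟨⟨h, k1 p (by simp), k1 q (by simp)⟩, ⟨h, k1 p (by simp), k1 q (by simp)⟩, by simp⟩)
      (by simp [sw_eq h, swp_mul_self])
    simpa [elW] using this
  | k + 1, p, q, hp, hq, h => by
    have c := elW_halves hp hq hp hq h h (Or.inl rfl) (Or.inr h) (Or.inr h.symm) (Or.inl rfl)
      (Bool.false_ne_true)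
    rw [elW, show ∀ a b : Grp, a * b * (a * b) = a * (b * a) * b from fun a b => by
      simp only [mul_assoc], ← c.eq, show ∀ a b : Grp, a * (a * b) * b = (a * a) * (b * b) from
      fun a b => by simp only [mul_assoc], elW_sq k (hp.snoc _) (hq.snoc _) (inc_snoc h _ _),
      elW_sq k (hp.snoc _) (hq.snoc _) (inc_snoc h _ _), one_mul]

theorem elW_symm : ∀ k {p q : List Bool}, Big k p → Big k q → Inc p q →
    elW k q p = elW k p q
  | 0, p, q, hp, hq, h => by
    have hsq := elW_sq 0 hp hq h
    unfold Big at *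
    have := el_rel [p, q] [(p, q), (q, p)] (by simp) (by simp) (by simp; omega)
      (by simp [h, h.symm]) (by
        simp only [List.forall_mem_cons]
        have k1 : ∀ x ∈ [p, q], ∃ u ∈ [p, q], ∃ r : List Bool,
            r.length ≤ 1 ∧ x = u ++ r := fun x hx => ⟨x, hx, [], by simp, by simp⟩
        exact ⟨⟨h, k1 p (by simp), k1 q (by simp)⟩, ⟨h.symm, k1 q (by simp), k1 p (by simp)⟩,
          by simp⟩)
      (by simp [sw_eq h, sw_eq h.symm, ← swp_comm h, swp_mul_self])
    simp only [List.map_cons, List.map_nil, List.prod_cons, List.prod_nil, mul_one] at this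
    exact mul_left_cancel (this.trans hsq.symm)
  | k + 1, p, q, hp, hq, h => by
    rw [elW, elW, elW_symm k (hp.snoc _) (hq.snoc _) (inc_snoc h _ _),
      elW_symm k (hp.snoc _) (hq.snoc _) (inc_snoc h _ _)]

theorem elW_tri : ∀ k {p q r : List Bool}, Big k p → Big k q → Big k r → Inc p q → Inc q r →
    Inc p r → elW k p q * elW k q r * elW k p q = elW k p r
  | 0, p, q, r, hp, hq, hr, h1, h2, h3 => by
    have hsq := elW_sq 0 hp hr h3
    unfold Big at *
    have := el_rel [p, q, r] [(p, q), (q, r), (p, q), (p, r)] (by simp) (by simp) (by simp; omega)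
      (by simp [h1, h2, h3, h1.symm, h2.symm, h3.symm]) (by
        simp only [List.forall_mem_cons]
        have k1 : ∀ x ∈ [p, q, r], ∃ u ∈ [p, q, r], ∃ s : List Bool,
            s.length ≤ 1 ∧ x = u ++ s := fun x hx => ⟨x, hx, [], by simp, by simp⟩
        exact ⟨⟨h1, k1 p (by simp), k1 q (by simp)⟩, ⟨h2, k1 q (by simp), k1 r (by simp)⟩,
          ⟨h1, k1 p (by simp), k1 q (by simp)⟩, ⟨h3, k1 p (by simp), k1 r (by simp)⟩, by simp⟩)
      (by
        have aq : Acts p q q := Or.inr (Or.inl List.prefix_rfl)
        have ar : Acts p q r := Or.inr (Or.inr ⟨h3, h2⟩)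
        have hc := swp_conj_act h1 h2 aq ar
        rw [swp_congr (act_inc h1 aq ar h2) h3 (by rw [act_right h1 List.prefix_rfl]; simp)
          (act_fix h3 h2)] at hc
        simp only [List.map_cons, List.map_nil, List.prod_cons, List.prod_nil, mul_one, sw_eq h1,
          sw_eq h2, sw_eq h3, ← mul_assoc, hc, swp_mul_self])
    simp only [List.map_cons, List.map_nil, List.prod_cons, List.prod_nil, mul_one] at this
    simp only [elW] at hsq ⊢
    exact mul_right_cancel (b := el p r) (by rw [hsq, ← this]; simp only [mul_assoc])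
  | k + 1, p, q, r, hp, hq, hr, h1, h2, h3 => by
    have c1 := elW_halves (x := true) (y := false) hp hq hq hr h1 h2 (Or.inr h1) (Or.inr h3)
      (Or.inl rfl) (Or.inr h2) Bool.false_ne_true.symm
    have c2 := elW_halves (x := false) (y := true) hp hq hq hr h1 h2 (Or.inr h1) (Or.inr h3)
      (Or.inl rfl) (Or.inr h2) Bool.false_ne_true
    have c3 := elW_halves (x := true) (y := false) hp hq hp hq h1 h1 (Or.inl rfl) (Or.inr h1)
      (Or.inr h1.symm) (Or.inl rfl) Bool.false_ne_true.symm
    simp only [elW]
    rw [show ∀ a a' b b' : Grp, Commute a' b → Commute a b' → Commute a' a →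
        a * a' * (b * b') * (a * a') = (a * b * a) * (a' * b' * a') from fun a a' b b' u v w => by
          rw [show a * a' * (b * b') * (a * a') = a * (a' * b) * (b' * a) * a' by
            simp only [mul_assoc], u.eq, ← v.eq,
            show a * (b * a') * (a * b') * a' = a * b * (a' * a) * b' * a' by
              simp only [mul_assoc], w.eq]
          simp only [mul_assoc]]
    · rw [elW_tri k (hp.snoc _) (hq.snoc _) (hr.snoc _) (inc_snoc h1 _ _) (inc_snoc h2 _ _)
        (inc_snoc h3 _ _), elW_tri k (hp.snoc _) (hq.snoc _) (hr.snoc _) (inc_snoc h1 _ _)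
        (inc_snoc h2 _ _) (inc_snoc h3 _ _)]
    · exact c1
    · exact c2
    · exact c3

theorem elW_word : ∀ k {p q : List Bool}, Big k p → Big k q → Inc p q →
    elW (k + 1) p q = elW k p q
  | 0, p, q, hp, hq, h => by
    have hsq := elW_sq 0 hp hq h
    unfold Big at *
    have := el_rel [p, q] [(p, q), (p ++ [false], q ++ [false]), (p ++ [true], q ++ [true])]
      (by simp) (by simp) (by simp; omega) (by simp [h, h.symm]) (by
        simp only [List.forall_mem_cons]
        have k1 : ∀ x ∈ [p, q], ∀ r : List Bool, r.length ≤ 1 → ∃ u ∈ [p, q], ∃ r' : List Bool,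
            r'.length ≤ 1 ∧ x ++ r = u ++ r' := fun x hx r hr => ⟨x, hx, r, hr, rfl⟩
        exact ⟨⟨h, by simp, by simp⟩,
          ⟨inc_snoc h _ _, k1 p (by simp) _ (by simp), k1 q (by simp) _ (by simp)⟩,
          ⟨inc_snoc h _ _, k1 p (by simp) _ (by simp), k1 q (by simp) _ (by simp)⟩, by simp⟩)
      (by
        simp only [List.map_cons, List.map_nil, List.prod_cons, List.prod_nil, mul_one, sw_eq h,
          sw_eq (inc_snoc h _ _), ← swp_split h, swp_mul_self])
    simp only [List.map_cons, List.map_nil, List.prod_cons, List.prod_nil, mul_one] at this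
    simp only [elW] at hsq ⊢
    exact mul_left_cancel (this.trans hsq.symm)
  | k + 1, p, q, hp, hq, h => by
    rw [elW, elW_word k (hp.snoc _) (hq.snoc _) (inc_snoc h _ _),
      elW_word k (hp.snoc _) (hq.snoc _) (inc_snoc h _ _)]
    rfl

theorem toV_elW : ∀ k {p q : List Bool}, Big k p → Big k q → Inc p q →
    toV (elW k p q) = sw p q
  | 0, p, q, hp, hq, h => toV_el ⟨by simpa [Big] using hp, by simpa [Big] using hq, h⟩
  | k + 1, p, q, hp, hq, h => by
    rw [elW, map_mul, toV_elW k (hp.snoc _) (hq.snoc _) (inc_snoc h _ _),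
      toV_elW k (hp.snoc _) (hq.snoc _) (inc_snoc h _ _), sw_eq h, sw_eq (inc_snoc h _ _),
      sw_eq (inc_snoc h _ _), ← swp_split]

/-- The exchange of any two incomparable words. -/
noncomputable def full (p q : List Bool) : Grp := elW 4 p q

theorem big4 (p : List Bool) : Big 4 p := Nat.le_add_left 4 _

theorem elW_collapse : ∀ k {p q : List Bool}, 4 ≤ p.length → 4 ≤ q.length → Inc p q →
    elW k p q = el p q
  | 0, _, _, _, _, _ => rfl
  | k + 1, p, q, hp, hq, h => by
    rw [elW_word k (by unfold Big; omega) (by unfold Big; omega) h, elW_collapse k hp hq h]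

theorem inc_of_disjoint {p q : List Bool}
    (h : Disjoint (cyl (Set.univ : Set Unit) p) (cyl Set.univ q)) : Inc p q := by
  rcases disjoint_cyl_iff.1 h with hd | hd
  · exact absurd hd fun hd => Set.disjoint_left.1 hd (Set.mem_univ ()) (Set.mem_univ ())
  · exact hd

theorem clopens_unit (U : Clopens Unit) : U = ⊥ ∨ U = ⊤ := by
  by_cases h : () ∈ U
  · exact Or.inr (SetLike.ext fun _ => iff_of_true h trivial)
  · exact Or.inl (SetLike.ext fun _ => iff_of_false h id)

instance : MulAction PUnit Unit where
  smul _ _ := ()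
  one_smul _ := rfl
  mul_smul _ _ _ := rfl

instance : ContinuousConstSMul PUnit Unit := ⟨fun _ => continuous_const⟩

theorem top_ne_bot : (⊤ : Clopens Unit) ≠ ⊥ := clopens_ne_bot.2 ⟨(), trivial⟩

/-- The permutation of points given by an element. -/
noncomputable def toPt : Grp →* Equiv.Perm (Pt Unit) :=
  (Equiv.uniqueProd Seq Unit).symm.permCongrHom.toMonoidHom.comp toV

open Classical in
/-- The element of a box over the point. -/
noncomputable def boxEl (b : Box Unit PUnit) : Grp := if b.U = ⊥ then 1 else full b.p b.q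

theorem boxEl_top (g : PUnit) (p q : List Bool) : boxEl ⟨⊤, g, p, q⟩ = full p q :=
  if_neg top_ne_bot

theorem boxEl_bot (g : PUnit) (p q : List Bool) : boxEl ⟨⊥, g, p, q⟩ = 1 := if_pos rfl

theorem inc_of_valid {g : PUnit} {p q : List Bool}
    (h : Box.Valid (⟨⊤, g, p, q⟩ : Box Unit PUnit)) : Inc p q :=
  inc_of_disjoint (by simpa [Box.Valid, Box.dom, Box.cod] using h)

/-- The box system over the point. -/
noncomputable def system : BoxSystem Unit PUnit Grp where
  toPerm := toPt
  el := boxEl
  toPerm_el b hv z := by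
    obtain ⟨U, g, p, q⟩ := b
    obtain ⟨⟨⟩, s⟩ := z
    rcases clopens_unit U with rfl | rfl
    · rw [boxEl_bot, map_one, Box.move_out]
      · rfl
      · simp [Box.supp, Box.dom, Box.cod, cyl]
    have h := inc_of_valid hv
    rw [boxEl_top]
    change ((() : Unit), toV (full p q) s) = _
    rw [full, toV_elW 4 (big4 p) (big4 q) h, sw_eq h]
    by_cases hp : Pre p s
    · obtain ⟨t, rfl⟩ := hp
      rw [swp_left, Box.move_dom ⟨⊤, g, p, q⟩ (y := ()) trivial t]
    by_cases hq : Pre q s
    · obtain ⟨t, rfl⟩ := hq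
      rw [swp_right, Box.move_cod (b := ⟨⊤, g, p, q⟩) hv (y := ()) trivial t]
    rw [swp_out h hp hq, Box.move_out]
    rintro (⟨-, hh⟩ | ⟨-, hh⟩)
    · exact hp hh
    · exact hq hh
  el_sq b hv := by
    obtain ⟨U, g, p, q⟩ := b
    rcases clopens_unit U with rfl | rfl
    · simp [boxEl_bot]
    rw [boxEl_top]
    exact elW_sq 4 (big4 p) (big4 q) (inc_of_valid hv)
  el_symm b hv := by
    obtain ⟨U, g, p, q⟩ := b
    rcases clopens_unit U with rfl | rfl
    · simp [boxEl_bot]
    simp only [smulC_top, boxEl_top]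
    exact elW_symm 4 (big4 p) (big4 q) (inc_of_valid hv)
  el_sup U V g p q hd hv := by
    rcases clopens_unit U with rfl | rfl
    · simp [boxEl_bot]
    rcases clopens_unit V with rfl | rfl
    · simp [boxEl_bot]
    · exact absurd (disjoint_self.1 hd) top_ne_bot
  el_word U g p q hv := by
    rcases clopens_unit U with rfl | rfl
    · simp [boxEl_bot]
    simp only [boxEl_top, full]
    rw [← elW_word 4 (big4 p) (big4 q) (inc_of_valid hv)]
    rfl
  el_comm b c hb hc hd := by
    obtain ⟨U, g, p, q⟩ := b
    obtain ⟨V, g', p', q'⟩ := c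
    rcases clopens_unit U with rfl | rfl
    · rw [boxEl_bot]; exact Commute.one_left _
    rcases clopens_unit V with rfl | rfl
    · rw [boxEl_bot]; exact Commute.one_right _
    simp only [Box.supp, Box.dom, Box.cod, smulC_top, Set.disjoint_union_left,
      Set.disjoint_union_right, Clopens.coe_top] at hd
    rw [boxEl_top, boxEl_top]
    exact elW_comm 4 (big4 p) (big4 q) (big4 p') (big4 q') (inc_of_valid hb) (inc_of_valid hc)
      (inc_of_disjoint hd.1.1) (inc_of_disjoint hd.2.1) (inc_of_disjoint hd.1.2)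
      (inc_of_disjoint hd.2.2)
  el_tri U g h p q r h1 h2 h3 := by
    rcases clopens_unit U with rfl | rfl
    · simp [boxEl_bot]
    simp only [smulC_top, Clopens.coe_top] at h1 h2 h3
    simp only [smulC_top, boxEl_top]
    exact elW_tri 4 (big4 p) (big4 q) (big4 r) (inc_of_disjoint h1) (inc_of_disjoint h2)
      (inc_of_disjoint h3)
  generated := by
    rw [eq_top_iff, ← PresentedGroup.closure_range_of rels, Subgroup.closure_le]
    rintro _ ⟨⟨⟨p, q⟩, hp, hq, h⟩, rfl⟩
    refine Subgroup.subset_closure ⟨⟨⊤, 1, p, q⟩, ?_, ?_⟩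
    · simp only [Box.Valid, Box.dom, Box.cod]
      exact disjoint_cyl_word h.1 h.2 _ _
    · rw [boxEl_top, full, elW_collapse 4 (mem_small.1 hp).1 (mem_small.1 hq).1 h,
        el_small ⟨(mem_small.1 hp).2, (mem_small.1 hq).2⟩, e, dif_pos ⟨hp, hq, h⟩]

/-- Thompson's group is finitely presented. -/
theorem thompson_fp : Group.IsFinitelyPresented thompson :=
  haveI := grp_fp
  Group.IsFinitelyPresented.equiv (exists_iso system).some

/-- The permutation data. -/
theorem nonempty_permData : Nonempty PermData := ⟨permDataOfBox system grp_fp⟩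

end Vale.Agent.P193.Bh.V

namespace Vale.Agent.P193.Bh

/-- Thompson's group on the eventually zero words is permutation data. -/
theorem pointGoal : PointGoal := fun _ _ => V.nonempty_permData

end Vale.Agent.P193.Bh
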