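import Vale.Agent.P193.Bh.Group.Perm.Cones

/-!
# P193: how an exchange of cones acts on words
-/

namespace Vale.Agent.P193.Bh.V

open Vale.Agent.P193.Fp

/-- The exchange `u ↔ v` on words. -/
def act (u v w : List Bool) : List Bool :=
  if u <+: w then v ++ w.drop u.length else if v <+: w then u ++ w.drop v.length else w

/-- The exchange `u ↔ v` carries the cone at `w` onto a cone. -/
def Acts (u v w : List Bool) : Prop := u <+: w ∨ v <+: w ∨ (Inc u w ∧ Inc v w)

theorem inc_iff {p q : List Bool} : Inc p q ↔ ∀ s t, app p s ≠ app q t := by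
  refine ⟨fun h s t e => h.not_pre (pre_app q t) ⟨s, e.symm⟩, fun h => ⟨?_, ?_⟩⟩
  · rintro ⟨r, rfl⟩; exact h _ (fun _ => false) (app_append p r _).symm
  · rintro ⟨r, rfl⟩; exact h (fun _ => false) _ (app_append q r _)

theorem acts_spec {u v w : List Bool} (h : Inc u v) (ha : Acts u v w) (t : Seq) :
    swp h (app w t) = app (act u v w) t := by
  by_cases hu : u <+: w
  · obtain ⟨r, rfl⟩ := hu
    rw [act, if_pos (List.prefix_append u r), List.drop_left, app_append, swp_left, app_append]
  by_cases hv : v <+: w
  · obtain ⟨r, rfl⟩ := hv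
    rw [act, if_neg hu, if_pos (List.prefix_append v r), List.drop_left, app_append, swp_right,
      app_append]
  obtain h' | h' | ⟨h1, h2⟩ := ha
  · exact absurd h' hu
  · exact absurd h' hv
  rw [act, if_neg hu, if_neg hv, swp_out h (h1.not_pre (pre_app w t)) (h2.not_pre (pre_app w t))]

theorem act_inc {u v p q : List Bool} (h : Inc u v) (hp : Acts u v p) (hq : Acts u v q)
    (hpq : Inc p q) : Inc (act u v p) (act u v q) := by
  refine inc_iff.2 fun s t e => inc_iff.1 hpq s t ((swp h).injective ?_)
  rw [acts_spec h hp, acts_spec h hq, e]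

theorem act_left {u v w : List Bool} (hu : u <+: w) : act u v w = v ++ w.drop u.length :=
  if_pos hu

theorem act_right {u v w : List Bool} (h : Inc u v) (hv : v <+: w) :
    act u v w = u ++ w.drop v.length := by
  rw [act, if_neg fun hu => ?_, if_pos hv]
  exact h.not_pre ((pre_app w fun _ => false).of_prefix hv) ((pre_app w _).of_prefix hu)

theorem act_fix {u v w : List Bool} (h1 : Inc u w) (h2 : Inc v w) : act u v w = w := by
  rw [act, if_neg h1.1, if_neg h2.1]

theorem acts_act {u v w : List Bool} (h : Inc u v) (ha : Acts u v w) : Acts u v (act u v w) := by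
  obtain hu | hv | ⟨h1, h2⟩ := ha
  · rw [act_left hu]; exact Or.inr (Or.inl (List.prefix_append v _))
  · rw [act_right h hv]; exact Or.inl (List.prefix_append u _)
  · rw [act_fix h1 h2]; exact Or.inr (Or.inr ⟨h1, h2⟩)

theorem act_act {u v w : List Bool} (h : Inc u v) (ha : Acts u v w) :
    act u v (act u v w) = w :=
  app_ext fun t => by
    rw [← acts_spec h (acts_act h ha), ← acts_spec h ha]
    exact congrFun (congrArg DFunLike.coe (swp_mul_self h)) _

theorem swp_congr {p q p' q' : List Bool} (h : Inc p q) (h' : Inc p' q') (e : p = p')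
    (e' : q = q') : swp h = swp h' := by
  subst e; subst e'; rfl

theorem swp_comm {p q : List Bool} (h : Inc p q) : swp h = swp h.symm := by
  ext1 s
  by_cases hp : Pre p s
  · obtain ⟨t, rfl⟩ := hp; rw [swp_left, swp_right]
  by_cases hq : Pre q s
  · obtain ⟨t, rfl⟩ := hq; rw [swp_right, swp_left]
  rw [swp_out h hp hq, swp_out h.symm hq hp]

/-- Conjugating the exchange of two cones by a map carrying them onto cones. -/
theorem swp_conj {x : Equiv.Perm Seq} {p q p' q' : List Bool} (h : Inc p q) (h' : Inc p' q')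
    (hp : ∀ t, x (app p t) = app p' t) (hq : ∀ t, x (app q t) = app q' t) :
    x * swp h * x⁻¹ = swp h' := by
  rw [mul_inv_eq_iff_eq_mul]
  ext1 s
  simp only [Equiv.Perm.mul_apply]
  by_cases h1 : Pre p s
  · obtain ⟨t, rfl⟩ := h1; rw [swp_left, hp, hq, swp_left]
  by_cases h2 : Pre q s
  · obtain ⟨t, rfl⟩ := h2; rw [swp_right, hp, hq, swp_right]
  rw [swp_out h h1 h2, swp_out h' (fun ⟨t, e⟩ => h1 ⟨t, x.injective (e.trans (hp t).symm)⟩)
    fun ⟨t, e⟩ => h2 ⟨t, x.injective (e.trans (hq t).symm)⟩]

theorem swp_conj_act {u v p q : List Bool} (h : Inc u v) (hpq : Inc p q) (hp : Acts u v p)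
    (hq : Acts u v q) : swp h * swp hpq * swp h = swp (act_inc h hp hq hpq) := by
  have := swp_conj hpq (act_inc h hp hq hpq) (x := swp h) (acts_spec h hp) (acts_spec h hq)
  rwa [inv_eq_of_mul_eq_one_left (swp_mul_self h)] at this

theorem act_cases {u v w : List Bool} (h : Inc u v) (ha : Acts u v w) :
    (u <+: w ∧ Inc v w ∧ ∃ r, w = u ++ r ∧ act u v w = v ++ r) ∨
      (v <+: w ∧ Inc u w ∧ ∃ r, w = v ++ r ∧ act u v w = u ++ r) ∨
      (Inc u w ∧ Inc v w ∧ act u v w = w) := by
  obtain hu | hv | ⟨h1, h2⟩ := ha
  · obtain ⟨r, rfl⟩ := hu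
    exact Or.inl ⟨List.prefix_append u r, by simpa using h.symm.append [] r, r, rfl,
      by rw [act_left (List.prefix_append u r), List.drop_left]⟩
  · obtain ⟨r, rfl⟩ := hv
    exact Or.inr (Or.inl ⟨List.prefix_append v r, by simpa using h.append [] r, r, rfl,
      by rw [act_right h (List.prefix_append v r), List.drop_left]⟩)
  · exact Or.inr (Or.inr ⟨h1, h2, act_fix h1 h2⟩)

theorem act_append {u v w : List Bool} (h : Inc u v) (ha : Acts u v w) (r : List Bool) :
    Acts u v (w ++ r) ∧ act u v (w ++ r) = act u v w ++ r := by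
  obtain ⟨-, -, s, rfl, e⟩ | ⟨-, -, s, rfl, e⟩ | ⟨h1, h2, e⟩ := act_cases h ha
  · refine ⟨Or.inl ((List.prefix_append u s).trans (List.prefix_append _ r)), ?_⟩
    rw [e, List.append_assoc, act_left (List.prefix_append u _), List.drop_left, List.append_assoc]
  · refine ⟨Or.inr (Or.inl ((List.prefix_append v s).trans (List.prefix_append _ r))), ?_⟩
    rw [e, List.append_assoc, act_right h (List.prefix_append v _), List.drop_left,
      List.append_assoc]
  · have h1' : Inc u (w ++ r) := by simpa using h1.append [] r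
    have h2' : Inc v (w ++ r) := by simpa using h2.append [] r
    exact ⟨Or.inr (Or.inr ⟨h1', h2'⟩), by rw [e, act_fix h1' h2']⟩

theorem acts_trans {s t u v w : List Bool} (hst : Inc s t) (huv : Inc u v) (hu : Acts s t u)
    (hv : Acts s t v) (hw : Acts s t w) (h : Acts u v w) : Acts s t (act u v w) := by
  obtain ⟨-, -, r, -, e⟩ | ⟨-, -, r, -, e⟩ | ⟨-, -, e⟩ := act_cases huv h <;> rw [e]
  · exact (act_append hst hv r).1
  · exact (act_append hst hu r).1
  · exact hw

theorem acts_conj {s t u v w : List Bool} (hst : Inc s t) (huv : Inc u v) (hu : Acts s t u)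
    (hv : Acts s t v) (hw : Acts s t w) (h : Acts u v w) :
    Acts (act s t u) (act s t v) (act s t w) := by
  obtain ⟨-, -, r, rfl, -⟩ | ⟨-, -, r, rfl, -⟩ | ⟨h1, h2, -⟩ := act_cases huv h
  · rw [(act_append hst hu r).2]; exact Or.inl (List.prefix_append _ _)
  · rw [(act_append hst hv r).2]; exact Or.inr (Or.inl (List.prefix_append _ _))
  · exact Or.inr (Or.inr ⟨act_inc hst hu hw h1, act_inc hst hv hw h2⟩)

/-- The word identity behind a conjugation. -/
theorem act_conj {s t u v w : List Bool} (hst : Inc s t) (huv : Inc u v) (hu : Acts s t u)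
    (hv : Acts s t v) (hw : Acts s t w) (h : Acts u v w) :
    act (act s t u) (act s t v) (act s t w) = act s t (act u v w) :=
  app_ext fun x => by
    rw [← acts_spec (act_inc hst hu hv huv) (acts_conj hst huv hu hv hw h),
      ← acts_spec hst hw, ← acts_spec hst (acts_trans hst huv hu hv hw h),
      ← acts_spec huv h, ← swp_conj_act hst huv hu hv]
    simp only [Equiv.Perm.mul_apply]
    rw [show swp hst (swp hst (app w x)) = app w x from
      congrFun (congrArg DFunLike.coe (swp_mul_self hst)) _]

open Classical in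
/-- The exchange of two words, the identity unless they are incomparable. -/
noncomputable def sw (p q : List Bool) : Equiv.Perm Seq := if h : Inc p q then swp h else 1

theorem sw_eq {p q : List Bool} (h : Inc p q) : sw p q = swp h := dif_pos h

theorem pre_wd (w : List Bool) (t : Seq) : app w t = app (w ++ [t 0]) (sdrop 1 t) := by
  rw [app_append, app_cons, app_nil, scons_eta]

theorem swp_split {p q : List Bool} (h : Inc p q) :
    swp h = swp (h.append [false] [false]) * swp (h.append [true] [true]) := by
  ext1 s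
  simp only [Equiv.Perm.mul_apply]
  by_cases hp : Pre p s
  · obtain ⟨t, rfl⟩ := hp
    rw [swp_left, pre_wd p t, pre_wd q t]
    rcases Bool.eq_false_or_eq_true (t 0) with e | e <;> rw [e]
    · rw [swp_left, swp_out (h.append [false] [false])]
      · exact ((h.append [false] [true])).not_pre (pre_app _ _)
      · exact (inc_siblings q).not_pre (pre_app _ _)
    · rw [swp_out (h.append [true] [true]) ((inc_siblings p).symm.not_pre (pre_app _ _))
        ((h.append [false] [true]).symm.not_pre (pre_app _ _)), swp_left]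
  by_cases hq : Pre q s
  · obtain ⟨t, rfl⟩ := hq
    rw [swp_right, pre_wd p t, pre_wd q t]
    rcases Bool.eq_false_or_eq_true (t 0) with e | e <;> rw [e]
    · rw [swp_right, swp_out (h.append [false] [false])]
      · exact (inc_siblings p).not_pre (pre_app _ _)
      · exact ((h.append [true] [false])).symm.not_pre (pre_app _ _)
    · rw [swp_out (h.append [true] [true]) ((h.append [true] [false]).not_pre (pre_app _ _))
        ((inc_siblings q).symm.not_pre (pre_app _ _)), swp_right]
  have np : ∀ b, ¬Pre (p ++ [b]) s := fun b e => hp (e.of_prefix (List.prefix_append p [b]))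
  have nq : ∀ b, ¬Pre (q ++ [b]) s := fun b e => hq (e.of_prefix (List.prefix_append q [b]))
  rw [swp_out h hp hq, swp_out _ (np true) (nq true), swp_out _ (np false) (nq false)]

end Vale.Agent.P193.Bh.V
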