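import Vale.Agent.P193.Fp.Basic
import Vale.Agent.P193.Fp.Codes

/-!
# P193: Thompson's group as generated by exchanges of cones

`V` is generated by the exchanges `p s ↔ q s` of incomparable cones. Every element acts on the cones
of some length by prefix replacement, and every permutation with a finite table of that kind is in
`V`: a deepest pair of siblings of the range is pulled back to a deepest pair of siblings of the
domain and merged.
-/

namespace Vale.Agent.P193.Bh.V

open Vale.Agent.P193.Fp

/-- Infinite binary words. -/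
abbrev Seq : Type := ℕ → Bool

/-- `p` is a prefix of `s`. -/
def Pre (p : List Bool) (s : Seq) : Prop := ∃ t, s = app p t

theorem pre_app (p : List Bool) (t : Seq) : Pre p (app p t) := ⟨t, rfl⟩

theorem pre_iff {p : List Bool} {s : Seq} : Pre p s ↔ stake p.length s = p := by
  refine ⟨?_, fun h => ⟨sdrop p.length s, ?_⟩⟩
  · rintro ⟨t, rfl⟩; exact stake_app p t
  · conv_rhs => arg 1; rw [← h]
    rw [app_stake]

theorem Pre.of_prefix {p q : List Bool} {s : Seq} (h : p <+: q) (hq : Pre q s) : Pre p s := by
  obtain ⟨r, rfl⟩ := h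
  obtain ⟨t, rfl⟩ := hq
  exact ⟨app r t, app_append p r t⟩

theorem Pre.comparable {p q : List Bool} {s : Seq} (h : Pre p s) (h' : Pre q s) :
    p <+: q ∨ q <+: p := by
  obtain ⟨t, rfl⟩ := h
  obtain ⟨t', e⟩ := h'
  rcases Nat.le_total p.length q.length with hl | hl
  · obtain ⟨r, rfl, -⟩ := app_eq_prefix hl e
    exact Or.inl ⟨r, rfl⟩
  · obtain ⟨r, rfl, -⟩ := app_eq_prefix hl e.symm
    exact Or.inr ⟨r, rfl⟩

/-- Incomparable words. -/
def Inc (p q : List Bool) : Prop := ¬p <+: q ∧ ¬q <+: p

theorem Inc.symm {p q : List Bool} (h : Inc p q) : Inc q p := ⟨h.2, h.1⟩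

theorem Inc.not_pre {p q : List Bool} (h : Inc p q) {s : Seq} (hs : Pre q s) : ¬Pre p s :=
  fun hp => (hp.comparable hs).elim h.1 h.2

theorem Inc.append {p q : List Bool} (h : Inc p q) (r r' : List Bool) :
    Inc (p ++ r) (q ++ r') :=
  ⟨fun e => (Pre.comparable (Pre.of_prefix ((List.prefix_append p r).trans e)
      (pre_app _ fun _ => false)) (Pre.of_prefix (List.prefix_append q r')
        (pre_app _ fun _ => false))).elim h.1 h.2,
    fun e => (Pre.comparable (Pre.of_prefix (List.prefix_append p r) (pre_app _ fun _ => false))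
      (Pre.of_prefix ((List.prefix_append q r').trans e) (pre_app _ fun _ => false))).elim h.1 h.2⟩

theorem Inc.push {p q : List Bool} (h : Inc p q) (c : List Bool) : Inc (c ++ p) (c ++ q) := by
  simpa [Inc, List.prefix_append_right_inj] using h

theorem inc_siblings (m : List Bool) : Inc (m ++ [false]) (m ++ [true]) := by
  simp [Inc, List.prefix_append_right_inj]

open Classical in
/-- The exchange of two cones. -/
noncomputable def swapFun (p q : List Bool) (s : Seq) : Seq :=
  if Pre p s then app q (sdrop p.length s) else if Pre q s then app p (sdrop q.length s) else s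

theorem swapFun_left (p q : List Bool) (t : Seq) : swapFun p q (app p t) = app q t := by
  rw [swapFun, if_pos (pre_app p t), sdrop_app]

theorem swapFun_right {p q : List Bool} (h : Inc p q) (t : Seq) :
    swapFun p q (app q t) = app p t := by
  rw [swapFun, if_neg (h.not_pre (pre_app q t)), if_pos (pre_app q t), sdrop_app]

theorem swapFun_out {p q : List Bool} {s : Seq} (h : ¬Pre p s) (h' : ¬Pre q s) :
    swapFun p q s = s := by
  rw [swapFun, if_neg h, if_neg h']

theorem swapFun_involutive {p q : List Bool} (h : Inc p q) :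
    Function.Involutive (swapFun p q) := by
  intro s
  by_cases hp : Pre p s
  · obtain ⟨t, rfl⟩ := hp
    rw [swapFun_left, swapFun_right h]
  by_cases hq : Pre q s
  · obtain ⟨t, rfl⟩ := hq
    rw [swapFun_right h, swapFun_left]
  rw [swapFun_out hp hq, swapFun_out hp hq]

/-- The exchange of two incomparable cones, as a permutation. -/
noncomputable def swp {p q : List Bool} (h : Inc p q) : Equiv.Perm Seq :=
  (swapFun_involutive h).toPerm (swapFun p q)

theorem swp_apply {p q : List Bool} (h : Inc p q) (s : Seq) : swp h s = swapFun p q s := rfl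

theorem swp_left {p q : List Bool} (h : Inc p q) (t : Seq) : swp h (app p t) = app q t :=
  swapFun_left p q t

theorem swp_right {p q : List Bool} (h : Inc p q) (t : Seq) : swp h (app q t) = app p t :=
  swapFun_right h t

theorem swp_out {p q : List Bool} (h : Inc p q) {s : Seq} (hp : ¬Pre p s) (hq : ¬Pre q s) :
    swp h s = s :=
  swapFun_out hp hq

theorem swp_mul_self {p q : List Bool} (h : Inc p q) : swp h * swp h = 1 :=
  Equiv.ext fun s => swapFun_involutive h s

/-- The exchanges of cones. -/
def swaps : Set (Equiv.Perm Seq) := {x | ∃ (p q : List Bool) (h : Inc p q), x = swp h}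

/-- Thompson's group. -/
def thompson : Subgroup (Equiv.Perm Seq) := Subgroup.closure swaps

theorem swp_mem {p q : List Bool} (h : Inc p q) : swp h ∈ thompson :=
  Subgroup.subset_closure ⟨p, q, h, rfl⟩

/-- Induction along products of exchanges. -/
theorem induction_left {motive : Equiv.Perm Seq → Prop} (one : motive 1)
    (mul : ∀ (p q : List Bool) (h : Inc p q) (y : Equiv.Perm Seq), y ∈ thompson → motive y →
      motive (swp h * y)) {x : Equiv.Perm Seq} (hx : x ∈ thompson) : motive x := by
  induction hx using Subgroup.closure_induction_left with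
  | one => exact one
  | mul_left x hx y hy ih => obtain ⟨p, q, h, rfl⟩ := hx; exact mul p q h y hy ih
  | inv_mul_cancel x hx y hy ih =>
    obtain ⟨p, q, h, rfl⟩ := hx
    rw [inv_eq_of_mul_eq_one_left (swp_mul_self h)]
    exact mul p q h y hy ih

/-- Prefix replacement on all cones of length `n`. -/
def Tab (x : Equiv.Perm Seq) (n : ℕ) : Prop :=
  ∀ p : List Bool, p.length = n → ∃ q, ∀ t, x (app p t) = app q t

theorem Tab.mono {x : Equiv.Perm Seq} {n m : ℕ} (h : Tab x n) (hm : n ≤ m) : Tab x m := by
  intro p hp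
  obtain ⟨q, hq⟩ := h (p.take n) (by simp; omega)
  refine ⟨q ++ p.drop n, fun t => ?_⟩
  rw [app_append, ← hq, ← app_append, List.take_append_drop]

theorem tab_swp {p q : List Bool} (h : Inc p q) : Tab (swp h) (max p.length q.length) := by
  intro w hw
  have hd : ∀ a : List Bool, a.length ≤ w.length → ∀ t, Pre a (app w t) → a <+: w := by
    intro a ha t ⟨t', e⟩
    obtain ⟨r, rfl, -⟩ := app_eq_prefix ha e.symm
    exact ⟨r, rfl⟩
  by_cases h1 : p <+: w
  · obtain ⟨r, rfl⟩ := h1
    exact ⟨q ++ r, fun t => by rw [app_append, swp_left, app_append]⟩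
  by_cases h2 : q <+: w
  · obtain ⟨r, rfl⟩ := h2
    exact ⟨p ++ r, fun t => by rw [app_append, swp_right, app_append]⟩
  exact ⟨w, fun t => swp_out h (fun e => h1 (hd p (by omega) t e))
    fun e => h2 (hd q (by omega) t e)⟩

theorem Tab.mul {x y : Equiv.Perm Seq} {n m : ℕ} (hx : Tab x n) (hy : Tab y m) :
    Tab (x * y) (m + n) := by
  intro p hp
  obtain ⟨q, hq⟩ := hy (p.take m) (by simp; omega)
  obtain ⟨r, hr⟩ := (hx.mono (show n ≤ (q ++ p.drop m).length by simp; omega)) _ rfl
  refine ⟨r, fun t => ?_⟩
  rw [Equiv.Perm.mul_apply, show app p t = app (p.take m) (app (p.drop m) t) by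
    rw [← app_append, List.take_append_drop], hq, ← app_append, hr]

theorem exists_tab {x : Equiv.Perm Seq} (hx : x ∈ thompson) : ∃ n, Tab x n := by
  refine induction_left (motive := fun x => ∃ n, Tab x n) ⟨0, fun p _ => ⟨p, fun _ => rfl⟩⟩ (fun p q h y _ ih => ?_) hx
  obtain ⟨m, hm⟩ := ih
  exact ⟨_, (tab_swp h).mul hm⟩

/-- A finite set of words with exactly one prefix of each infinite word. -/
def IsCode (D : Finset (List Bool)) : Prop := ∀ s : Seq, ∃! p, p ∈ D ∧ Pre p s

theorem IsCode.inc {D : Finset (List Bool)} (hD : IsCode D) {p q : List Bool} (hp : p ∈ D)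
    (hq : q ∈ D) (hne : p ≠ q) : Inc p q := by
  constructor <;> intro h
  · exact hne ((hD (app q fun _ => false)).unique ⟨hp, (pre_app q _).of_prefix h⟩ ⟨hq, pre_app q _⟩)
  · exact hne ((hD (app p fun _ => false)).unique ⟨hp, pre_app p _⟩ ⟨hq, (pre_app p _).of_prefix h⟩)

theorem IsCode.exists_siblings {D : Finset (List Bool)} (hD : IsCode D) (h0 : [] ∉ D) :
    ∃ m, m ++ [false] ∈ D ∧ m ++ [true] ∈ D := by
  obtain ⟨p₀, hp₀, -⟩ := (hD fun _ => false).exists
  obtain ⟨e, he, hmax⟩ := D.exists_max_image List.length ⟨p₀, hp₀⟩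
  have hne : e ≠ [] := fun h => h0 (h ▸ he)
  obtain ⟨m, b, rfl⟩ : ∃ m b, e = m ++ [b] :=
    ⟨e.dropLast, e.getLast hne, (List.dropLast_append_getLast hne).symm⟩
  suffices hs : m ++ [!b] ∈ D by
    cases b
    · exact ⟨m, he, hs⟩
    · exact ⟨m, hs, he⟩
  obtain ⟨d, hd, hpre⟩ := (hD (app (m ++ [!b]) fun _ => false)).exists
  have hlen := hmax d hd
  simp only [List.length_append, List.length_singleton] at hlen
  obtain ⟨t, e⟩ := hpre
  obtain ⟨r, hr, -⟩ := app_eq_prefix (p := d) (q := m ++ [!b]) (by simp; omega) e.symm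
  by_cases hrn : r = []
  · rw [hrn, List.append_nil] at hr
    rwa [hr]
  · -- a proper prefix of the sibling is a prefix of the deepest word
    exfalso
    have hlen' : d.length ≤ m.length := by
      have := congrArg List.length hr
      simp only [List.length_append, List.length_singleton] at this
      have := List.length_pos_iff.2 hrn
      omega
    have hdm : d <+: m :=
      List.prefix_of_prefix_length_le ⟨r, hr.symm⟩ (List.prefix_append m [!b]) hlen'
    have := (hD.inc hd he fun h => by rw [h] at hlen'; simp at hlen').1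
    exact this (hdm.trans (List.prefix_append m [b]))

theorem isCode_words (n : ℕ) : IsCode (words n).toFinset := fun s => by
  refine ⟨stake n s, ⟨by simp [mem_words], sdrop n s, (app_stake n s).symm⟩, ?_⟩
  rintro p ⟨hp, hpre⟩
  rw [List.mem_toFinset, mem_words] at hp
  rw [← hp, (pre_iff.1 hpre)]

theorem IsCode.merge {D : Finset (List Bool)} (hD : IsCode D) {m : List Bool}
    (h0 : m ++ [false] ∈ D) (h1 : m ++ [true] ∈ D) :
    IsCode (insert m ((D.erase (m ++ [false])).erase (m ++ [true]))) := by
  intro s
  obtain ⟨d, ⟨hd, hpre⟩, huni⟩ := hD s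
  have hm : ∀ (b : Bool), m <+: m ++ [b] := fun b => List.prefix_append m [b]
  have key : ∀ p ∈ (D.erase (m ++ [false])).erase (m ++ [true]), Pre p s → ¬Pre m s := by
    intro p hp hps hms
    simp only [Finset.mem_erase] at hp
    obtain ⟨t, rfl⟩ := hms
    have hb : ∀ b, t 0 = b → m ++ [b] ∈ D → False := fun b hb hbD => by
      have : p = m ++ [b] := (hD _).unique ⟨hp.2.2, hps⟩
        ⟨hbD, sdrop 1 t, by rw [app_append, app_cons, app_nil, ← hb, scons_eta]⟩
      rcases b with _ | _
      · exact hp.2.1 this
      · exact hp.1 this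
    rcases Bool.eq_false_or_eq_true (t 0) with e | e
    · exact hb _ e h1
    · exact hb _ e h0
  by_cases hms : Pre m s
  · refine ⟨m, ⟨Finset.mem_insert_self _ _, hms⟩, ?_⟩
    rintro p ⟨hp, hps⟩
    rcases Finset.mem_insert.1 hp with rfl | hp
    · rfl
    · exact absurd hms (key p hp hps)
  · have hdne : ∀ b, d ≠ m ++ [b] := fun b e => hms (hpre.of_prefix (e ▸ hm b))
    refine ⟨d, ⟨Finset.mem_insert_of_mem (by simp [hd, hdne]), hpre⟩, ?_⟩
    rintro p ⟨hp, hps⟩
    rcases Finset.mem_insert.1 hp with rfl | hp
    · exact absurd hps hms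
    · exact huni p ⟨(Finset.mem_erase.1 (Finset.mem_erase.1 hp).2).2, hps⟩

/-- The exchange of two members of a code permutes the code. -/
theorem exists_leaf_swap {D : Finset (List Bool)} (hD : IsCode D) {a b : List Bool} (ha : a ∈ D)
    (hb : b ∈ D) : ∃ σ ∈ thompson, ∀ p ∈ D, ∀ t, σ (app p t) = app (Equiv.swap a b p) t := by
  by_cases hab : a = b
  · exact ⟨1, thompson.one_mem, fun p _ t => by simp [hab]⟩
  refine ⟨swp (hD.inc ha hb hab), swp_mem _, fun p hp t => ?_⟩
  by_cases h1 : p = a
  · subst h1; rw [Equiv.swap_apply_left, swp_left]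
  by_cases h2 : p = b
  · subst h2; rw [Equiv.swap_apply_right, swp_right]
  rw [Equiv.swap_apply_of_ne_of_ne h1 h2,
    swp_out _ ((hD.inc ha hp (Ne.symm h1)).not_pre (pre_app p t))
      ((hD.inc hb hp (Ne.symm h2)).not_pre (pre_app p t))]

/-- A permutation with a finite table is in `V`. -/
theorem mem_of_table (D : Finset (List Bool)) (hD : IsCode D) (x : Equiv.Perm Seq)
    (hx : ∀ p ∈ D, ∃ q, ∀ t, x (app p t) = app q t) : x ∈ thompson := by
  induction hn : D.card using Nat.strong_induction_on generalizing D x with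
  | _ n ih =>
    by_cases h0 : [] ∈ D
    · obtain ⟨q, hq⟩ := hx [] h0
      simp only [app_nil] at hq
      cases q with
      | nil =>
        rw [show x = 1 from Equiv.ext fun t => hq t]
        exact thompson.one_mem
      | cons b q =>
        obtain ⟨t, ht⟩ := x.surjective fun _ => !b
        rw [hq, app_cons] at ht
        exact absurd (congrFun ht 0) (by cases b <;> simp [scons])
    choose! q hq using hx
    obtain ⟨m, hm0, hm1⟩ := hD.exists_siblings h0
    have hQ : IsCode (D.image q) := fun s => by
      obtain ⟨z, rfl⟩ := x.surjective s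
      obtain ⟨d, ⟨hd, t, rfl⟩, huni⟩ := hD z
      refine ⟨q d, ⟨Finset.mem_image_of_mem q hd, t, hq d hd t⟩, ?_⟩
      rintro p ⟨hp, t', e⟩
      obtain ⟨d', hd', rfl⟩ := Finset.mem_image.1 hp
      rw [← hq d' hd'] at e
      rw [huni d' ⟨hd', t', x.injective e⟩]
    have hinj : ∀ d ∈ D, ∀ d' ∈ D, q d = q d' → d = d' := fun d hd d' hd' e => by
      have : app d (fun _ => false) = app d' (fun _ => false) := x.injective (by
        rw [hq d hd, hq d' hd', e])
      exact (hD _).unique ⟨hd, pre_app d _⟩ ⟨hd', _, this⟩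
    have hQ0 : [] ∉ D.image q := fun hmem => by
      have e : ∀ d ∈ D, q d = [] := fun d hd => by
        by_contra hne
        exact (hQ.inc hmem (Finset.mem_image_of_mem q hd) (Ne.symm hne)).1 List.nil_prefix
      exact absurd (hinj _ hm0 _ hm1 ((e _ hm0).trans (e _ hm1).symm)) (by simp)
    obtain ⟨v, hv0, hv1⟩ := hQ.exists_siblings hQ0
    obtain ⟨d0, hd0, e0⟩ := Finset.mem_image.1 hv0
    obtain ⟨d1, hd1, e1⟩ := Finset.mem_image.1 hv1
    -- carry the siblings of the domain to the preimages of those of the range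
    obtain ⟨σ, hσ, hσD⟩ := exists_leaf_swap hD hm0 hd0
    set d1' := Equiv.swap (m ++ [false]) d0 d1 with hd1'
    have hd1'D : d1' ∈ D := by
      rw [hd1', Equiv.swap_apply_def]; split_ifs <;> assumption
    obtain ⟨τ, hτ, hτD⟩ := exists_leaf_swap hD hm1 hd1'D
    have h01 : d0 ≠ d1 := fun e => by
      rw [e, e1] at e0; simp at e0
    have hne : m ++ [false] ≠ d1' := fun e => h01 <| by
      have := congrArg (Equiv.swap (m ++ [false]) d0) e
      rwa [hd1', Equiv.swap_apply_self, Equiv.swap_apply_left] at this
    set y := x * σ * τ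
    have hy0 : ∀ t, y (app (m ++ [false]) t) = app (v ++ [false]) t := fun t => by
      simp only [y, Equiv.Perm.mul_apply]
      rw [hτD _ hm0, Equiv.swap_apply_of_ne_of_ne (by simp) hne, hσD _ hm0,
        Equiv.swap_apply_left, hq _ hd0, e0]
    have hy1 : ∀ t, y (app (m ++ [true]) t) = app (v ++ [true]) t := fun t => by
      simp only [y, Equiv.Perm.mul_apply]
      rw [hτD _ hm1, Equiv.swap_apply_left, hσD _ hd1'D, hd1', Equiv.swap_apply_self, hq _ hd1, e1]
    have hyV : y ∈ thompson := by
      refine ih _ ?_ _ (hD.merge hm0 hm1) y (fun p hp => ?_) rfl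
      · rw [← hn]
        have hmn : m ∉ (D.erase (m ++ [false])).erase (m ++ [true]) := fun h => by
          simp only [Finset.mem_erase] at h
          exact (hD.inc h.2.2 hm0 (by simp)).1 (List.prefix_append m [false])
        rw [Finset.card_insert_of_notMem hmn,
          Finset.card_erase_of_mem (Finset.mem_erase.2 ⟨by simp, hm1⟩),
          Finset.card_erase_of_mem hm0]
        have := Finset.one_lt_card.2 ⟨_, hm0, _, hm1, by simp⟩
        omega
      · rcases Finset.mem_insert.1 hp with rfl | hp
        · refine ⟨v, fun t => ?_⟩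
          rcases Bool.eq_false_or_eq_true (t 0) with e | e
          · have h := hy1 (sdrop 1 t)
            simp only [app_append, app_cons, app_nil] at h
            rwa [← e, scons_eta] at h
          · have h := hy0 (sdrop 1 t)
            simp only [app_append, app_cons, app_nil] at h
            rwa [← e, scons_eta] at h
        · simp only [Finset.mem_erase] at hp
          have hp' : Equiv.swap (m ++ [true]) d1' p ∈ D := by
            rw [Equiv.swap_apply_def]; split_ifs <;> first | assumption | exact hp.2.2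
          have hp'' : Equiv.swap (m ++ [false]) d0 (Equiv.swap (m ++ [true]) d1' p) ∈ D := by
            rw [Equiv.swap_apply_def]; split_ifs <;> assumption
          exact ⟨q (Equiv.swap (m ++ [false]) d0 (Equiv.swap (m ++ [true]) d1' p)), fun t => by
            simp only [y, Equiv.Perm.mul_apply]; rw [hτD _ hp.2.2, hσD _ hp', hq _ hp'']⟩
    have : x = y * τ⁻¹ * σ⁻¹ := by simp [y, mul_assoc]
    rw [this]
    exact thompson.mul_mem (thompson.mul_mem hyV (thompson.inv_mem hτ)) (thompson.inv_mem hσ)

/-- A permutation with a table of some length is in `V`. -/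
theorem mem_of_tab {x : Equiv.Perm Seq} {n : ℕ} (h : Tab x n) : x ∈ thompson :=
  mem_of_table _ (isCode_words n) x fun p hp => h p (by simpa [mem_words] using hp)

end Vale.Agent.P193.Bh.V
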