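import Vale.Agent.P193.Bh.Group.Perm.Reduce

/-!
# P193: every generator conjugates every exchange correctly; true identities lift to long words
-/

namespace Vale.Agent.P193.Bh.V

open Vale.Agent.P193.Fp

theorem act_len {s t w : List Bool} (h : Inc s t) (ha : Acts s t w) :
    (s <+: w ∧ Inc t w ∧ (act s t w).length + s.length = w.length + t.length) ∨
      (t <+: w ∧ Inc s w ∧ (act s t w).length + t.length = w.length + s.length) ∨
      (Inc s w ∧ Inc t w ∧ act s t w = w) := by
  obtain ⟨h1, h2, r, rfl, e'⟩ | ⟨h1, h2, r, rfl, e'⟩ | hh := act_cases h ha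
  · exact Or.inl ⟨h1, h2, by rw [e']; simp; omega⟩
  · exact Or.inr (Or.inl ⟨h1, h2, by rw [e']; simp; omega⟩)
  · exact Or.inr (Or.inr hh)

/-- A generator lowering the total length is a lowering one. -/
theorem low_of_lt {s t p q : List Bool} (hst : Sig s t) (hp : Acts s t p) (hq : Acts s t q)
    (h : tot (act s t p) (act s t q) < tot p q) : Low s t p q := by
  obtain ⟨h1, h2, h3, hi⟩ := hst
  unfold tot at h
  have key : ∀ w, Acts s t w → (s <+: w ∧ Inc t w ∧ (act s t w).length + s.length = w.length + 4) ∨
      (Inc t w ∧ (act s t w).length = w.length) ∨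
      (act s t w).length + 4 = w.length + s.length := by
    intro w hw
    obtain ⟨a, a', a''⟩ | ⟨-, -, a''⟩ | ⟨-, a', a''⟩ := act_len hi hw
    · exact Or.inl ⟨a, a', by omega⟩
    · exact Or.inr (Or.inr (by omega))
    · exact Or.inr (Or.inl ⟨a', by rw [a'']⟩)
  have hs5 : s.length = 5 := by
    rcases key p hp with ⟨-, -, e1⟩ | ⟨-, e1⟩ | e1 <;>
      rcases key q hq with ⟨-, -, e2⟩ | ⟨-, e2⟩ | e2 <;> omega
  rcases key p hp with ⟨a, a', e1⟩ | ⟨a', e1⟩ | e1
  · rcases key q hq with ⟨-, b', -⟩ | ⟨b', -⟩ | e2
    · exact ⟨hs5, h3, a', b', Or.inl a⟩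
    · exact ⟨hs5, h3, a', b', Or.inl a⟩
    · omega
  · rcases key q hq with ⟨b, b', -⟩ | ⟨-, e2⟩ | e2
    · exact ⟨hs5, h3, a', b', Or.inr b⟩
    · omega
    · omega
  · rcases key q hq with ⟨-, -, e2⟩ | ⟨-, e2⟩ | e2 <;> omega

theorem acts_top {s t w u : List Bool} (hw : Acts s t w) (hu : u <+: w) (hs : s.length ≤ u.length)
    (ht : t.length ≤ u.length) : Acts s t u := by
  obtain h | h | ⟨h1, h2⟩ := hw
  · exact Or.inl (List.prefix_of_prefix_length_le h hu hs)
  · exact Or.inr (Or.inl (List.prefix_of_prefix_length_le h hu ht))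
  · exact Or.inr (Or.inr ⟨inc_of_prefix h1 hu hs, inc_of_prefix h2 hu ht⟩)

theorem act_free {s t v w : List Bool} (hst : Inc s t) (hw : Acts s t w) (hs : Inc v s)
    (ht : Inc v t) (hi : Inc v w) : Inc v (act s t w) := by
  obtain ⟨-, -, r, -, e'⟩ | ⟨-, -, r, -, e'⟩ | ⟨-, -, e'⟩ := act_cases hst hw <;> rw [e']
  · simpa using ht.append [] r
  · simpa using hs.append [] r
  · exact hi

variable {n : ℕ} {p q s t : List Bool}

theorem eq_general (ih : ConjBelow n) (hb : Pair p q) (hst : Sig s t) (hp : Acts s t p)
    (hq : Acts s t q) (hn : tot p q ≤ n) (hn' : tot (act s t p) (act s t q) ≤ n)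
    {u : List Bool} (hu : u.length = 5) (hpre : u <+: p ∨ u <+: q)
    (hlen : (act s t u).length = 5) : e s t * el p q * e s t = el (act s t p) (act s t q) := by
  have hi := hst.2.2.2
  have hsl : s.length ≤ u.length := by have := hst.2.1; omega
  have htl : t.length ≤ u.length := by have := hst.2.2.1; omega
  obtain ⟨hfl, hfi⟩ := free_spec (L := [p, q, s, t]) (by simp)
    (by simp [hb.1, hb.2.1, hst.1, hst.2.2.1])
  have ip := hfi p (by simp)
  have iq := hfi q (by simp)
  have is' := hfi s (by simp)
  have it := hfi t (by simp)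
  revert hfl ip iq is' it hfi
  generalize free [p, q, s, t] = v
  intro hfl hfi ip iq is' it
  have hl : Low u v p q := ⟨hu, hfl, ip, iq, hpre⟩
  have au : Acts s t u := hpre.elim (fun h => acts_top hp h hsl htl) fun h => acts_top hq h hsl htl
  have av : Acts s t v := Or.inr (Or.inr ⟨is'.symm, it.symm⟩)
  have ev : act s t v = v := act_fix is'.symm it.symm
  have pre' : ∀ {w}, Acts s t w → u <+: w → act s t u <+: act s t w := by
    intro w _ h
    obtain ⟨r, rfl⟩ := h
    rw [(act_append hi au r).2]
    exact List.prefix_append _ r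
  have hl' : Low (act s t u) v (act s t p) (act s t q) :=
    ⟨hlen, hfl, act_free hi hp is' it ip, act_free hi hq is' it iq,
      hpre.imp (pre' hp) (pre' hq)⟩
  have hb' := hb.act hst hp hq
  have cP := act_conj hi hl.inc au av hp (hl.acts hb)
  have cQ := act_conj hi hl.inc au av hq (hl.symm.acts hb.symm)
  rw [ev] at cP cQ
  have t1 := hl.tot_lt hb
  have t2 := hl'.tot_lt hb'
  have hX := ih _ _ s t (hl.pair hb) hst (acts_trans hi hl.inc au av hp (hl.acts hb))
    (acts_trans hi hl.inc au av hq (hl.symm.acts hb.symm)) (by omega) (by rw [← cP, ← cQ]; omega)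
  rw [← cP, ← cQ] at hX
  have hr := econj hst.isGen hl.sig.isGen au av (by rw [ev]; exact hl'.sig.isGen)
  rw [ev] at hr
  rw [lower ih hb hn hl, lower ih hb' hn' hl']
  exact conj_step hst.mul_self hr hX

theorem eq_swap (ih : ConjBelow n) (hb : Pair p q) (hst : Sig s t) (hs5 : s.length = 5)
    (hpq : (s <+: p ∧ t <+: q) ∨ (t <+: p ∧ s <+: q))
    (hn : tot p q ≤ n) (hn' : tot (act s t p) (act s t q) ≤ n) :
    e s t * el p q * e s t = el (act s t p) (act s t q) := by
  have hi := hst.2.2.2
  have hp : Acts s t p := hpq.elim (fun h => Or.inl h.1) fun h => Or.inr (Or.inl h.1)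
  have hq : Acts s t q := hpq.elim (fun h => Or.inr (Or.inl h.2)) fun h => Or.inl h.2
  obtain ⟨hfl, hfi⟩ := free_spec (L := [p, q, s, t]) (by simp)
    (by simp [hb.1, hb.2.1, hst.1, hst.2.2.1])
  have ip := hfi p (by simp)
  have iq := hfi q (by simp)
  have is' := hfi s (by simp)
  have it := hfi t (by simp)
  revert hfl ip iq is' it hfi
  generalize free [p, q, s, t] = v
  intro hfl hfi ip iq is' it
  have hl : Low s v p q := ⟨hs5, hfl, ip, iq, hpq.imp (·.1) (·.2)⟩
  have hb' := hb.act hst hp hq
  have hl' : Low s v (act s t p) (act s t q) := by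
    refine ⟨hs5, hfl, act_free hi hp is' it ip, act_free hi hq is' it iq, ?_⟩
    rcases hpq with ⟨-, h⟩ | ⟨h, -⟩
    · exact Or.inr (by rw [act_right hi h]; exact List.prefix_append s _)
    · exact Or.inl (by rw [act_right hi h]; exact List.prefix_append s _)
  have hvt : Sig v t := ⟨hfl.ge, by omega, hst.2.2.1, it⟩
  have a1 : Acts s v v := Or.inr (Or.inl List.prefix_rfl)
  have a2 : Acts s v t := Or.inr (Or.inr ⟨hi, it⟩)
  have b1 : act s v v = s := by rw [act_right hl.inc List.prefix_rfl]; simp
  have b2 : act s v t = t := act_fix hi it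
  have hr := econj hl.sig.isGen hvt.isGen a1 a2 (by rw [b1, b2]; exact hst.isGen)
  rw [b1, b2] at hr
  -- `ρ σ w = τ ρ w`
  have key : ∀ {w}, Acts s v w → (s <+: w ∨ t <+: w) →
      Acts v t (act s v w) ∧ act v t (act s v w) = act s v (act s t w) := by
    intro w aw hw
    have aτ : Acts v t (act s v w) := by
      rcases hw with h | h
      · rw [act_left h]; exact Or.inl (List.prefix_append v _)
      · obtain ⟨r, rfl⟩ := h
        rw [(act_append hl.inc a2 r).2, b2]
        exact Or.inr (Or.inl (List.prefix_append t r))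
    refine ⟨aτ, ?_⟩
    have aρ : Acts s v (act v t (act s v w)) :=
      acts_trans hl.inc it a1 a2 (acts_act hl.inc aw) aτ
    have h2 := act_conj hl.inc it a1 a2 (acts_act hl.inc aw) aτ
    rw [b1, b2, act_act hl.inc aw] at h2
    rw [h2, act_act hl.inc aρ]
  have kP := key (hl.acts hb) (hpq.imp (·.1) (·.1))
  have kQ := key (hl.symm.acts hb.symm) (hpq.symm.imp (·.2) (·.2))
  have t1 := hl.tot_lt hb
  have t2 := hl'.tot_lt hb'
  have hX := ih _ _ v t (hl.pair hb) hvt kP.1 kQ.1 (by omega) (by rw [kP.2, kQ.2]; omega)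
  rw [kP.2, kQ.2] at hX
  rw [lower ih hb hn hl, lower ih hb' hn' hl', ← hr, ← hX]
  simp only [mul_assoc]
  rw [← mul_assoc (e s v) (e s v) (el _ _ * _), hl.sig.mul_self, one_mul,
    ← mul_assoc (e s v) (e s v) (e v t * e s v), hl.sig.mul_self, one_mul]

theorem conjBelow : ∀ n, ConjBelow n := by
  intro n
  induction n with
  | zero => intro p q s t _ _ _ _ h; omega
  | succ n ih =>
    intro p q s t hb hst hp hq hn hn'
    have hi := hst.2.2.2
    have hb' := hb.act hst hp hq
    rcases Nat.lt_trichotomy (tot (act s t p) (act s t q)) (tot p q) with hlt | heq | hlt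
    · rw [lower ih hb (by omega) (low_of_lt hst hp hq hlt)]
      simp only [mul_assoc, hst.mul_self, mul_one]
      rw [← mul_assoc, hst.mul_self, one_mul]
    · by_cases hs : p.length ≤ 4 ∧ q.length ≤ 4
      · have := hb'.1; have := hb'.2.1; have := hb.1; have := hb.2.1
        unfold tot at heq
        have hs5 : p.length ≤ 5 ∧ q.length ≤ 5 := ⟨by omega, by omega⟩
        have hs' : (act s t p).length ≤ 5 ∧ (act s t q).length ≤ 5 := ⟨by omega, by omega⟩
        rw [el_small hs5, el_small hs']
        exact econj hst.isGen (isGen_of_pair hb hs5) hp hq (isGen_of_pair hb' hs')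
      obtain ⟨u, hu, hpre⟩ : ∃ u : List Bool, u.length = 5 ∧ (u <+: p ∨ u <+: q) := by
        by_cases h : 5 ≤ p.length
        · exact ⟨p.take 5, by rw [List.length_take]; omega, Or.inl (List.take_prefix 5 p)⟩
        · exact ⟨q.take 5, by rw [List.length_take]; omega, Or.inr (List.take_prefix 5 q)⟩
      obtain ⟨h1, h2, h3, -⟩ := hst
      by_cases hsw : s.length = 5 ∧ ((s <+: p ∧ t <+: q) ∨ (t <+: p ∧ s <+: q))
      · exact eq_swap ih hb ⟨h1, h2, h3, hi⟩ hsw.1 hsw.2 (by omega) (by omega)
      refine eq_general ih hb ⟨h1, h2, h3, hi⟩ hp hq (by omega) (by omega) hu hpre ?_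
      have hsl : s.length ≤ u.length := by omega
      have htl : t.length ≤ u.length := by omega
      have au : Acts s t u :=
        hpre.elim (fun h => acts_top hp h hsl htl) fun h => acts_top hq h hsl htl
      by_cases hs4 : s.length = 4
      · obtain ⟨-, -, h⟩ | ⟨-, -, h⟩ | ⟨-, -, h⟩ := act_len hi au
        · omega
        · omega
        · rw [h, hu]
      -- otherwise both words are fixed
      have key : Inc s p ∧ Inc t p ∧ Inc s q ∧ Inc t q := by
        unfold tot at heq
        have h5 : s.length = 5 := by omega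
        have l1 : ∀ w, act s t w = w → (act s t w).length = w.length := fun w e' => by rw [e']
        obtain ⟨a, -, a''⟩ | ⟨a, -, a''⟩ | ⟨a, a', a''⟩ := act_len hi hp
        · obtain ⟨-, -, b''⟩ | ⟨b, -, -⟩ | ⟨-, -, b''⟩ := act_len hi hq
          · omega
          · exact (hsw ⟨h5, Or.inl ⟨a, b⟩⟩).elim
          · have := l1 q b''; omega
        · obtain ⟨b, -, -⟩ | ⟨-, -, b''⟩ | ⟨-, -, b''⟩ := act_len hi hq
          · exact (hsw ⟨h5, Or.inr ⟨a, b⟩⟩).elim
          · omega
          · have := l1 q b''; omega
        · have := l1 p a''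
          obtain ⟨-, -, b''⟩ | ⟨-, -, b''⟩ | ⟨b, b', -⟩ := act_len hi hq
          · omega
          · omega
          · exact ⟨a, a', b, b'⟩
      obtain ⟨k1, k2, k3, k4⟩ := key
      rw [act_fix (hpre.elim (fun h => inc_of_prefix k1 h hsl) fun h => inc_of_prefix k3 h hsl)
        (hpre.elim (fun h => inc_of_prefix k2 h htl) fun h => inc_of_prefix k4 h htl), hu]
    · have e1 := act_act hi hp
      have e2 := act_act hi hq
      have hl : Low s t (act s t p) (act s t q) := low_of_lt hst (acts_act hi hp) (acts_act hi hq)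
        (by rw [e1, e2]; exact hlt)
      rw [lower ih hb' (by omega) hl, e1, e2]

/-- Every generator conjugates every exchange correctly. -/
theorem conj_el {p q s t : List Bool} (hb : Pair p q) (hst : Sig s t) (hp : Acts s t p)
    (hq : Acts s t q) : e s t * el p q * e s t = el (act s t p) (act s t q) :=
  conjBelow (tot p q + tot (act s t p) (act s t q) + 1) p q s t hb hst hp hq (by omega) (by omega)

theorem list_prod_conj {G : Type*} [Group G] {a : G} (h : a * a = 1) (l : List G) :
    (l.map fun x => a * x * a).prod = a * l.prod * a := by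
  induction l with
  | nil => simp [h]
  | cons x l ih =>
    rw [List.map_cons, List.prod_cons, ih, List.prod_cons,
      show a * x * a * (a * l.prod * a) = a * x * (a * a) * l.prod * a by simp only [mul_assoc], h]
    simp [mul_assoc]

/-- A true identity between at most four exchanges whose words extend those of a set of pairwise
incomparable long words by at most one letter holds. -/
theorem el_rel (B : List (List Bool)) (l : List (List Bool × List Bool)) (hl : l.length ≤ 4)
    (hB : B.length ≤ 8) (h4 : ∀ b ∈ B, 4 ≤ b.length)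
    (hinc : ∀ b ∈ B, ∀ c ∈ B, b ≠ c → Inc b c)
    (hw : ∀ x ∈ l, Inc x.1 x.2 ∧ (∃ b ∈ B, ∃ r : List Bool, r.length ≤ 1 ∧ x.1 = b ++ r) ∧
      ∃ b ∈ B, ∃ r : List Bool, r.length ≤ 1 ∧ x.2 = b ++ r)
    (h : (l.map fun x => sw x.1 x.2).prod = 1) : (l.map fun x => el x.1 x.2).prod = 1 := by
  induction hn : (B.map List.length).sum using Nat.strong_induction_on generalizing B l with
  | _ n ih =>
    have hpair : ∀ x ∈ l, Pair x.1 x.2 := fun x hx => by
      obtain ⟨hi, ⟨b, hb, r, -, e1⟩, c, hc, r', -, e2⟩ := hw x hx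
      have := h4 b hb; have := h4 c hc
      exact ⟨by rw [e1, List.length_append]; omega, by rw [e2, List.length_append]; omega, hi⟩
    by_cases hlong : ∃ b ∈ B, 5 ≤ b.length
    · obtain ⟨b₀, hb₀, h5⟩ := hlong
      have hu : (b₀.take 5).length = 5 := by rw [List.length_take]; omega
      have hu0 : b₀.take 5 <+: b₀ := List.take_prefix 5 b₀
      obtain ⟨hfl, hfi⟩ := free_spec (L := B) (by omega) h4
      revert hfl hfi hu hu0
      generalize free B = v
      generalize b₀.take 5 = u
      intro hu hu0 hfl hfi
      have hvu : Inc v u := inc_of_prefix (hfi b₀ hb₀) hu0 (by omega)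
      have hσ : Sig u v := ⟨by omega, hu.le, hfl, hvu.symm⟩
      have hB' : ∀ b ∈ B, Acts u v b := by
        intro b hb
        by_cases hub : u <+: b
        · exact Or.inl hub
        refine Or.inr (Or.inr ⟨⟨hub, fun hbu => ?_⟩, hfi b hb⟩)
        by_cases hbb : b = b₀
        · exact hub (hbb ▸ hu0)
        · exact (hinc b hb b₀ hb₀ hbb).1 (hbu.trans hu0)
      have hlen : ∀ b ∈ B, (act u v b).length ≤ b.length := by
        intro b hb
        obtain ⟨-, -, h⟩ | ⟨hv, -⟩ | ⟨-, -, h⟩ := act_len hvu.symm (hB' b hb)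
        · omega
        · exact absurd hv (hfi b hb).1
        · rw [h]
      have hx : ∀ x ∈ l, Acts u v x.1 ∧ Acts u v x.2 := fun x hx => by
        obtain ⟨-, ⟨b, hb, r, -, e1⟩, c, hc, r', -, e2⟩ := hw x hx
        rw [e1, e2]
        exact ⟨(act_append hvu.symm (hB' b hb) r).1, (act_append hvu.symm (hB' c hc) r').1⟩
      have hlt : ((B.map (act u v)).map List.length).sum < n := by
        rw [← hn, List.map_map]
        refine List.sum_lt_sum _ _ (fun b hb => hlen b hb) ⟨b₀, hb₀, ?_⟩
        simp only [Function.comp_apply]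
        rw [act_left hu0, List.length_append, List.length_drop, hfl, hu]
        omega
      have key := ih _ hlt (B.map (act u v)) (l.map fun x => (act u v x.1, act u v x.2))
        (by simpa using hl) (by simpa using hB) (by
          simp only [List.mem_map, forall_exists_index, and_imp, forall_apply_eq_imp_iff₂]
          exact fun b hb => act_length hσ (h4 b hb) (hB' b hb)) (by
          simp only [List.mem_map, forall_exists_index, and_imp, forall_apply_eq_imp_iff₂]
          exact fun b hb c hc hne => act_inc hvu.symm (hB' b hb) (hB' c hc)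
            (hinc b hb c hc fun e => hne (by rw [e]))) (by
          simp only [List.mem_map, forall_exists_index, and_imp, forall_apply_eq_imp_iff₂]
          intro x hx'
          obtain ⟨hi, ⟨b, hb, r, hr, e1⟩, c, hc, r', hr', e2⟩ := hw x hx'
          refine ⟨act_inc hvu.symm (hx x hx').1 (hx x hx').2 hi, ⟨_, ⟨b, hb, rfl⟩, r, hr, ?_⟩,
            _, ⟨c, hc, rfl⟩, r', hr', ?_⟩
          · rw [e1, (act_append hvu.symm (hB' b hb) r).2]
          · rw [e2, (act_append hvu.symm (hB' c hc) r').2]) (by
          rw [List.map_map]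
          have : (l.map fun x => sw (act u v x.1) (act u v x.2)) =
              (l.map fun x => sw x.1 x.2).map fun y => sw u v * y * sw u v := by
            rw [List.map_map]
            refine List.map_congr_left fun x hx' => ?_
            simp only [Function.comp_apply]
            have hi := (hw x hx').1
            rw [sw_eq hvu.symm, sw_eq hi, sw_eq (act_inc hvu.symm (hx x hx').1 (hx x hx').2 hi),
              swp_conj_act hvu.symm hi (hx x hx').1 (hx x hx').2]
          simp only [Function.comp_def]
          rw [this, list_prod_conj (by rw [sw_eq hvu.symm, swp_mul_self]), h, mul_one,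
            sw_eq hvu.symm, swp_mul_self]) rfl
      rw [List.map_map] at key
      have e1 : (l.map fun x => el (act u v x.1) (act u v x.2)) =
          (l.map fun x => el x.1 x.2).map fun y => e u v * y * e u v := by
        rw [List.map_map]
        refine List.map_congr_left fun x hx' => ?_
        simp only [Function.comp_apply]
        exact (conj_el (hpair x hx') hσ (hx x hx').1 (hx x hx').2).symm
      simp only [Function.comp_def] at key
      rw [e1, list_prod_conj hσ.mul_self] at key
      have := conj_back (X := (l.map fun x => el x.1 x.2).prod) hσ.mul_self key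
      rwa [mul_one, hσ.mul_self] at this
    · push Not at hlong
      have hgen : ∀ x ∈ l, (x.1.length ≤ 5 ∧ x.2.length ≤ 5) := fun x hx => by
        obtain ⟨-, ⟨b, hb, r, hr, e1⟩, c, hc, r', hr', e2⟩ := hw x hx
        have := hlong b hb; have := hlong c hc
        rw [e1, e2, List.length_append, List.length_append]; omega
      rw [List.map_congr_left fun x hx => el_small (hgen x hx)]
      exact rel_e l hl (fun x hx => isGen_of_pair (hpair x hx) (hgen x hx)) h

end Vale.Agent.P193.Bh.V
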