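import Vale.Agent.P193.Bh.Group.Perm.Act
import Vale.Agent.P193.Fp.Codes

/-!
# P193: a finite presentation of Thompson's group, by reduction of lengths

The generators are the exchanges of incomparable words of lengths four and five, the relations are
all true identities between at most four of them. The exchange of two long words is defined by
conjugating a shorter one by a generator `u ↔ v`, `|u| = 5`, `|v| = 4`; by induction on the total
length every generator then conjugates every exchange correctly.
-/

namespace Vale.Agent.P193.Bh.V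

open Vale.Agent.P193.Fp

/-- The words of lengths four and five. -/
def small : List (List Bool) := words 4 ++ words 5

theorem mem_small {w : List Bool} : w ∈ small ↔ 4 ≤ w.length ∧ w.length ≤ 5 := by
  simp only [small, List.mem_append, mem_words]; omega

/-- A generator: two incomparable small words. -/
abbrev Gen : Type := {pq : List Bool × List Bool // pq.1 ∈ small ∧ pq.2 ∈ small ∧ Inc pq.1 pq.2}

instance : Finite Gen :=
  ((small.toFinset ×ˢ small.toFinset).finite_toSet.subset fun (pq : List Bool × List Bool)
    (h : pq.1 ∈ small ∧ pq.2 ∈ small ∧ Inc pq.1 pq.2) => by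
      simp [h.1, h.2.1]).to_subtype

/-- The value of a generator. -/
noncomputable def Gen.val' (x : Gen) : Equiv.Perm Seq := sw x.1.1 x.1.2

/-- All true identities between at most four generators. -/
def rels : Set (FreeGroup Gen) :=
  (fun l : List Gen => (l.map FreeGroup.of).prod) ''
    {l | l.length ≤ 4 ∧ (l.map Gen.val').prod = 1}

theorem rels_finite : rels.Finite :=
  ((List.finite_length_le Gen 4).subset fun _ h => h.1).image _

/-- The presented group. -/
abbrev Grp : Type := PresentedGroup rels

theorem grp_fp : Group.IsFinitelyPresented Grp := by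
  have : Finite rels := rels_finite.to_subtype
  exact inferInstanceAs (Group.IsFinitelyPresented (PresentedGroup rels))

/-- The homomorphism to permutations. -/
noncomputable def toV : Grp →* Equiv.Perm Seq :=
  PresentedGroup.toGroup (f := Gen.val') (by
    rintro _ ⟨l, ⟨-, hl⟩, rfl⟩
    simpa [map_list_prod, List.map_map, Function.comp_def] using hl)

open Classical in
/-- The generator of two words, if they give one. -/
noncomputable def e (p q : List Bool) : Grp :=
  if h : p ∈ small ∧ q ∈ small ∧ Inc p q then PresentedGroup.of ⟨(p, q), h⟩ else 1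

/-- Two small incomparable words. -/
abbrev IsGen (p q : List Bool) : Prop := p ∈ small ∧ q ∈ small ∧ Inc p q

theorem toV_e {p q : List Bool} (h : IsGen p q) : toV (e p q) = sw p q := by
  rw [e, dif_pos (show p ∈ small ∧ q ∈ small ∧ Inc p q from h)]
  exact PresentedGroup.toGroup.of _

/-- A true identity between at most four generators holds. -/
theorem rel_e (l : List (List Bool × List Bool)) (hl : l.length ≤ 4)
    (hg : ∀ x ∈ l, IsGen x.1 x.2) (h : (l.map fun x => sw x.1 x.2).prod = 1) :
    (l.map fun x => e x.1 x.2).prod = 1 := by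
  let m : List Gen := l.attach.map fun x => ⟨x.1, hg x.1 x.2⟩
  have hmem : (m.map FreeGroup.of).prod ∈ rels :=
    ⟨m, ⟨by simpa [m] using hl, by
      simp only [m, List.map_map, Function.comp_def, Gen.val']
      rw [List.attach_map_val (l := l) (f := fun x => sw x.1 x.2)]
      exact h⟩, rfl⟩
  have := PresentedGroup.one_of_mem hmem
  rw [map_list_prod, List.map_map] at this
  refine (congrArg List.prod ?_).trans this
  simp only [m, List.map_map]
  conv_lhs => rw [← l.attach_map_subtype_val, List.map_map]
  refine List.map_congr_left fun x _ => ?_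
  simp only [Function.comp_apply, e]
  rw [dif_pos (show x.1.1 ∈ small ∧ x.1.2 ∈ small ∧ Inc x.1.1 x.1.2 from hg x.1 x.2)]
  rfl

theorem e_mul_self {p q : List Bool} (h : IsGen p q) : e p q * e p q = 1 := by
  have := rel_e [(p, q), (p, q)] (by simp)
    (by simp only [List.forall_mem_cons]; exact ⟨h, h, by simp⟩)
    (by simp [sw_eq h.2.2, swp_mul_self])
  simpa using this

theorem e_inv {p q : List Bool} (h : IsGen p q) : (e p q)⁻¹ = e p q :=
  inv_eq_of_mul_eq_one_left (e_mul_self h)

theorem econj {s t u v : List Bool} (h : IsGen s t) (huv : IsGen u v) (hu : Acts s t u)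
    (hv : Acts s t v) (h' : IsGen (act s t u) (act s t v)) :
    e s t * e u v * e s t = e (act s t u) (act s t v) := by
  have := rel_e [(s, t), (u, v), (s, t), (act s t u, act s t v)] (by simp)
    (by simp only [List.forall_mem_cons]; exact ⟨h, huv, h, h', by simp⟩)
    (by simp [sw_eq h.2.2, sw_eq huv.2.2, sw_eq h'.2.2, ← mul_assoc,
      swp_conj_act h.2.2 huv.2.2 hu hv, swp_mul_self])
  simp only [List.map_cons, List.map_nil, List.prod_cons, List.prod_nil, mul_one] at this
  rw [← inv_eq_of_mul_eq_one_left (e_mul_self h'), eq_inv_iff_mul_eq_one]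
  simpa [mul_assoc] using this

/-- A word of length four incomparable to a given few long words. -/
def free (L : List (List Bool)) : List Bool :=
  ((words 4).find? fun v => decide (∀ w ∈ L, ¬v <+: w)).getD []

theorem free_spec {L : List (List Bool)} (hL : L.length < 16) (h4 : ∀ w ∈ L, 4 ≤ w.length) :
    (free L).length = 4 ∧ ∀ w ∈ L, Inc (free L) w := by
  have hex : ∃ v ∈ words 4, ∀ w ∈ L, ¬v <+: w := by
    by_contra! hcon
    have hsub : words 4 ⊆ L.map (List.take 4) := fun v hv => by
      obtain ⟨w, hw, hp⟩ := hcon v hv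
      exact List.mem_map.2 ⟨w, hw, by rw [← mem_words.1 hv]; exact (List.prefix_iff_eq_take.1 hp).symm⟩
    have := ((nodup_words 4).subperm hsub).length_le
    simp [words] at this
    omega
  obtain ⟨v, hv⟩ : ∃ v, ((words 4).find? fun v => decide (∀ w ∈ L, ¬v <+: w)) = some v := by
    obtain ⟨v, hv, hv'⟩ := hex
    exact Option.ne_none_iff_exists'.1 (by
      simp only [ne_eq, List.find?_eq_none, decide_eq_true_eq]
      exact fun h => h v hv hv')
  have hm := List.mem_of_find?_eq_some hv
  have hp := List.find?_some hv
  rw [decide_eq_true_eq] at hp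
  rw [free, hv, Option.getD_some]
  refine ⟨mem_words.1 hm, fun w hw => ⟨hp w hw, fun hwv => hp w hw ?_⟩⟩
  rw [hwv.eq_of_length_le (by rw [mem_words.1 hm]; exact h4 w hw)]

/-- Both words have length at least four and they are incomparable. -/
def Pair (p q : List Bool) : Prop := 4 ≤ p.length ∧ 4 ≤ q.length ∧ Inc p q

/-- An exchange `s ↔ t` with `|s| ∈ {4,5}` and `|t| = 4`. -/
def Sig (s t : List Bool) : Prop := 4 ≤ s.length ∧ s.length ≤ 5 ∧ t.length = 4 ∧ Inc s t

theorem Sig.isGen {s t : List Bool} (h : Sig s t) : IsGen s t :=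
  ⟨mem_small.2 ⟨h.1, h.2.1⟩, mem_small.2 (by have := h.2.2.1; omega), h.2.2.2⟩

theorem act_length {s t w : List Bool} (h : Sig s t) (hw : 4 ≤ w.length) (ha : Acts s t w) :
    4 ≤ (act s t w).length := by
  obtain ⟨h1, h2, h3, h4⟩ := h
  obtain ⟨-, -, r, rfl, e'⟩ | ⟨-, -, r, rfl, e'⟩ | ⟨i1, i2, e'⟩ := act_cases h4 ha <;> rw [e']
  · simp; omega
  · simp; omega
  · exact hw

theorem Pair.act {s t p q : List Bool} (hb : Pair p q) (h : Sig s t) (hp : Acts s t p)
    (hq : Acts s t q) : Pair (V.act s t p) (V.act s t q) :=
  ⟨act_length h hb.1 hp, act_length h hb.2.1 hq, act_inc h.2.2.2 hp hq hb.2.2⟩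

end Vale.Agent.P193.Bh.V
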