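import Vale.Agent.P193.Bh.Group.Perm.Pres

/-!
# P193: exchanges of long words in the presented group
-/

namespace Vale.Agent.P193.Bh.V

open Vale.Agent.P193.Fp

/-- `u ↔ v` lowers the total length of `p`, `q`. -/
structure Low (u v p q : List Bool) : Prop where
  lu : u.length = 5
  lv : v.length = 4
  ip : Inc v p
  iq : Inc v q
  pre : u <+: p ∨ u <+: q

theorem inc_of_prefix {u v w : List Bool} (hi : Inc v w) (hu : u <+: w) (hl : v.length ≤ u.length) :
    Inc v u :=
  ⟨fun h => hi.1 (h.trans hu), fun h => hi.1 ((h.eq_of_length_le hl) ▸ hu)⟩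

theorem Low.inc {u v p q : List Bool} (h : Low u v p q) : Inc u v := by
  rcases h.pre with hu | hu
  · exact (inc_of_prefix h.ip hu (by rw [h.lu, h.lv]; omega)).symm
  · exact (inc_of_prefix h.iq hu (by rw [h.lu, h.lv]; omega)).symm

theorem Low.sig {u v p q : List Bool} (h : Low u v p q) : Sig u v :=
  ⟨by rw [h.lu]; omega, h.lu.le, h.lv, h.inc⟩

theorem Low.symm {u v p q : List Bool} (h : Low u v p q) : Low u v q p :=
  ⟨h.lu, h.lv, h.iq, h.ip, h.pre.symm⟩

theorem Pair.symm {p q : List Bool} (h : Pair p q) : Pair q p := ⟨h.2.1, h.1, h.2.2.symm⟩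

theorem Low.acts {u v p q : List Bool} (h : Low u v p q) (hb : Pair p q) : Acts u v p := by
  by_cases hu : u <+: p
  · exact Or.inl hu
  refine Or.inr (Or.inr ⟨⟨hu, fun hp => ?_⟩, h.ip⟩)
  exact hb.2.2.1 (hp.trans (h.pre.resolve_left hu))

theorem Low.len_le {u v p q : List Bool} (h : Low u v p q) (hb : Pair p q) :
    (act u v p).length ≤ p.length ∧ (u <+: p → (act u v p).length + 1 = p.length) := by
  obtain ⟨hu, -, r, rfl, e'⟩ | ⟨hv, -⟩ | ⟨h1, -, e'⟩ := act_cases h.inc (h.acts hb)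
  · rw [e']; simp [h.lu, h.lv]; omega
  · exact absurd hv h.ip.1
  · rw [e']; exact ⟨le_rfl, fun hp => absurd hp h1.1⟩

/-- The total length. -/
def tot (p q : List Bool) : ℕ := p.length + q.length

theorem Low.tot_lt {u v p q : List Bool} (h : Low u v p q) (hb : Pair p q) :
    tot (act u v p) (act u v q) < tot p q := by
  have h1 := h.len_le hb
  have h2 := h.symm.len_le hb.symm
  unfold tot
  rcases h.pre with hu | hu
  · have := h1.2 hu; have := h2.1; omega
  · have := h2.2 hu; have := h1.1; omega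

theorem Low.pair {u v p q : List Bool} (h : Low u v p q) (hb : Pair p q) :
    Pair (act u v p) (act u v q) :=
  hb.act h.sig (h.acts hb) (h.symm.acts hb.symm)

/-- Five letters of a long word of the pair. -/
def top5 (p q : List Bool) : List Bool := if 6 ≤ p.length then p.take 5 else q.take 5

theorem low_top5 {p q v : List Bool} (hb : Pair p q) (hs : ¬(p.length ≤ 5 ∧ q.length ≤ 5))
    (hv : v.length = 4) (hp : Inc v p) (hq : Inc v q) : Low (top5 p q) v p q := by
  by_cases h : 6 ≤ p.length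
  · rw [top5, if_pos h]
    exact ⟨by rw [List.length_take]; omega, hv, hp, hq, Or.inl (List.take_prefix 5 p)⟩
  · rw [top5, if_neg h]
    exact ⟨by rw [List.length_take]; omega, hv, hp, hq, Or.inr (List.take_prefix 5 q)⟩

theorem low_canon {p q : List Bool} (hb : Pair p q) (hs : ¬(p.length ≤ 5 ∧ q.length ≤ 5)) :
    Low (top5 p q) (free [p, q]) p q := by
  obtain ⟨hl, hi⟩ := free_spec (L := [p, q]) (by simp) (by simp [hb.1, hb.2.1])
  exact low_top5 hb hs hl (hi p (by simp)) (hi q (by simp))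

/-- The exchange, with fuel. -/
noncomputable def elAux : ℕ → List Bool → List Bool → Grp
  | 0, p, q => e p q
  | n + 1, p, q =>
    if p.length ≤ 5 ∧ q.length ≤ 5 then e p q
    else e (top5 p q) (free [p, q]) *
      elAux n (act (top5 p q) (free [p, q]) p) (act (top5 p q) (free [p, q]) q) *
      e (top5 p q) (free [p, q])

/-- The exchange of two long words. -/
noncomputable def el (p q : List Bool) : Grp := elAux (tot p q) p q

theorem elAux_small {p q : List Bool} (h : p.length ≤ 5 ∧ q.length ≤ 5) :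
    ∀ n, elAux n p q = e p q
  | 0 => rfl
  | n + 1 => by rw [elAux, if_pos h]

theorem elAux_stable : ∀ (n m : ℕ) {p q : List Bool}, Pair p q → tot p q ≤ n → tot p q ≤ m →
    elAux n p q = elAux m p q := by
  intro n
  induction n using Nat.strong_induction_on with
  | _ n ih =>
    intro m p q hb hn hm
    by_cases hs : p.length ≤ 5 ∧ q.length ≤ 5
    · rw [elAux_small hs, elAux_small hs]
    have := hb.1
    unfold tot at hn hm
    obtain ⟨n, rfl⟩ : ∃ k, n = k + 1 := ⟨n - 1, by omega⟩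
    obtain ⟨m, rfl⟩ : ∃ k, m = k + 1 := ⟨m - 1, by omega⟩
    have hl := low_canon hb hs
    have hd := hl.tot_lt hb
    rw [elAux, elAux, if_neg hs, if_neg hs]
    unfold tot at hd
    rw [ih n (by omega) m (hl.pair hb) (by unfold tot; omega) (by unfold tot; omega)]

theorem el_small {p q : List Bool} (h : p.length ≤ 5 ∧ q.length ≤ 5) : el p q = e p q :=
  elAux_small h _

theorem el_eq {p q : List Bool} (hb : Pair p q) (hs : ¬(p.length ≤ 5 ∧ q.length ≤ 5)) :
    el p q = e (top5 p q) (free [p, q]) *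
      el (act (top5 p q) (free [p, q]) p) (act (top5 p q) (free [p, q]) q) *
      e (top5 p q) (free [p, q]) := by
  have hl := low_canon hb hs
  have hd := hl.tot_lt hb
  have := hb.1
  obtain ⟨n, hn⟩ : ∃ k, tot p q = k + 1 := ⟨tot p q - 1, by unfold tot; omega⟩
  rw [el, hn, elAux, if_neg hs, elAux_stable n _ (hl.pair hb) (by omega) le_rfl]
  rfl

theorem isGen_of_pair {p q : List Bool} (hb : Pair p q) (h : p.length ≤ 5 ∧ q.length ≤ 5) :
    IsGen p q :=
  ⟨mem_small.2 ⟨hb.1, h.1⟩, mem_small.2 ⟨hb.2.1, h.2⟩, hb.2.2⟩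

theorem conj_back {G : Type*} [Group G] {a X Y : G} (h : a * a = 1) (hY : a * X * a = Y) :
    X = a * Y * a := by
  have hi : a⁻¹ = a := inv_eq_of_mul_eq_one_left h
  rw [← hY]
  nth_rewrite 1 [← hi]
  nth_rewrite 3 [← hi]
  simp [mul_assoc]

theorem conj_step {G : Type*} [Group G] {a r r' X Y : G} (h : a * a = 1) (hr : a * r * a = r')
    (hY : a * X * a = Y) : a * (r * X * r) * a = r' * Y * r' := by
  rw [← hr, ← hY]
  have hi : a⁻¹ = a := inv_eq_of_mul_eq_one_left h
  rw [show a * r * a * (a * X * a) * (a * r * a) = a * r * (a * a) * X * (a * a) * r * a by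
    simp only [mul_assoc], h]
  simp [mul_assoc]

theorem Sig.mul_self {s t : List Bool} (h : Sig s t) : e s t * e s t = 1 := e_mul_self h.isGen

/-- Every generator conjugates the exchanges of total length below `n` correctly. -/
def ConjBelow (n : ℕ) : Prop :=
  ∀ p q s t, Pair p q → Sig s t → Acts s t p → Acts s t q →
    tot p q < n → tot (act s t p) (act s t q) < n →
      e s t * el p q * e s t = el (act s t p) (act s t q)

variable {n : ℕ} {p q : List Bool}

theorem change_v (ih : ConjBelow n) (hb : Pair p q) (hs : ¬(p.length ≤ 5 ∧ q.length ≤ 5))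
    (hn : tot p q ≤ n) {v : List Bool} (hv : v.length = 4) (hp : Inc v p) (hq : Inc v q) :
    el p q = e (top5 p q) v * el (act (top5 p q) v p) (act (top5 p q) v q) * e (top5 p q) v := by
  have heq := el_eq hb hs
  have hl := low_canon hb hs
  have hl' := low_top5 hb hs hv hp hq
  revert heq hl hl'
  generalize top5 p q = u
  generalize free [p, q] = v₀
  intro heq hl hl'
  by_cases hvv : v₀ = v
  · subst hvv; exact heq
  have hτ : Sig v₀ v := ⟨hl.lv.ge, by rw [hl.lv]; omega, hv, incomp_of_length (hl.lv.trans hv.symm) hvv⟩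
  -- the two rules
  have hu : Acts v₀ v u := Or.inr (Or.inr ⟨hl.inc.symm, hl'.inc.symm⟩)
  have h0 : Acts v₀ v v₀ := Or.inl (List.prefix_rfl)
  have hτu : act v₀ v u = u := act_fix hl.inc.symm hl'.inc.symm
  have hτ0 : act v₀ v v₀ = v := by rw [act_left List.prefix_rfl]; simp
  have aP := hl.acts hb
  have aQ := hl.symm.acts hb.symm
  have wP : Acts v₀ v p := Or.inr (Or.inr ⟨hl.ip, hp⟩)
  have wQ : Acts v₀ v q := Or.inr (Or.inr ⟨hl.iq, hq⟩)
  have fP : act v₀ v (act u v₀ p) = act u v p := by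
    rw [← act_conj hτ.2.2.2 hl.inc hu h0 wP aP, hτu, hτ0, act_fix hl.ip hp]
  have fQ : act v₀ v (act u v₀ q) = act u v q := by
    rw [← act_conj hτ.2.2.2 hl.inc hu h0 wQ aQ, hτu, hτ0, act_fix hl.iq hq]
  have hX := ih _ _ v₀ v (hl.pair hb) hτ (acts_trans hτ.2.2.2 hl.inc hu h0 wP aP)
    (acts_trans hτ.2.2.2 hl.inc hu h0 wQ aQ) (by have := hl.tot_lt hb; omega)
    (by rw [fP, fQ]; have := hl'.tot_lt hb; omega)
  rw [fP, fQ] at hX
  -- `u ↔ v₀` fixes the words after `u ↔ v`
  have fix : ∀ {w w' : List Bool}, Low u v w w' → Pair w w' → Inc v₀ w → Inc u v₀ →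
      Inc v₀ v → Acts u v₀ (act u v w) ∧ act u v₀ (act u v w) = act u v w := by
    intro w w' hlw hbw hi hiu hiv
    obtain ⟨-, -, r, -, e'⟩ | ⟨hv', -⟩ | ⟨h1, -, e'⟩ := act_cases hlw.inc (hlw.acts hbw)
    · rw [e']
      have h1 : Inc u (v ++ r) := by simpa using hlw.inc.append [] r
      have h2 : Inc v₀ (v ++ r) := by simpa using hiv.append [] r
      exact ⟨Or.inr (Or.inr ⟨h1, h2⟩), act_fix h1 h2⟩
    · exact absurd hv' hlw.ip.1
    · rw [e']; exact ⟨Or.inr (Or.inr ⟨h1, hi⟩), act_fix h1 hi⟩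
  have gP := fix hl' hb hl.ip hl.inc hτ.2.2.2
  have gQ := fix hl'.symm hb.symm hl.iq hl.inc hτ.2.2.2
  have hY := ih _ _ u v₀ (hl'.pair hb) hl.sig gP.1 gQ.1 (by have := hl'.tot_lt hb; omega)
    (by rw [gP.2, gQ.2]; have := hl'.tot_lt hb; omega)
  rw [gP.2, gQ.2] at hY
  have a1 : Acts u v₀ v₀ := Or.inr (Or.inl List.prefix_rfl)
  have a2 : Acts u v₀ v := Or.inr (Or.inr ⟨hl'.inc, hτ.2.2.2⟩)
  have b1 : act u v₀ v₀ = u := by rw [act_right hl.inc List.prefix_rfl]; simp
  have b2 : act u v₀ v = v := act_fix hl'.inc hτ.2.2.2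
  have hr := econj hl.sig.isGen hτ.isGen a1 a2 (by rw [b1, b2]; exact hl'.sig.isGen)
  rw [b1, b2] at hr
  rw [heq, conj_back hτ.mul_self hX, ← conj_step hl.sig.mul_self hr hY]

/-- A lowering generator may be used to reduce. -/
theorem lower (ih : ConjBelow n) (hb : Pair p q) (hn : tot p q ≤ n) {u v : List Bool}
    (hl : Low u v p q) :
    el p q = e u v * el (act u v p) (act u v q) * e u v := by
  have hP := hl.len_le hb
  have hQ := hl.symm.len_le hb.symm
  by_cases hs : p.length ≤ 5 ∧ q.length ≤ 5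
  · have hs' : (act u v p).length ≤ 5 ∧ (act u v q).length ≤ 5 :=
      ⟨hP.1.trans hs.1, hQ.1.trans hs.2⟩
    rw [el_small hs, el_small hs']
    exact conj_back hl.sig.mul_self (econj hl.sig.isGen (isGen_of_pair hb hs) (hl.acts hb)
      (hl.symm.acts hb.symm) (isGen_of_pair (hl.pair hb) hs'))
  by_cases hu : u = top5 p q
  · subst hu; exact change_v ih hb hs hn hl.lv hl.ip hl.iq
  obtain ⟨hfl, hfi⟩ := free_spec (L := [p, q, v]) (by simp)
    (by simp [hb.1, hb.2.1, hl.lv])
  have hl0 := low_top5 hb hs hfl (hfi p (by simp)) (hfi q (by simp))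
  have heq := change_v ih hb hs hn hfl (hfi p (by simp)) (hfi q (by simp))
  have hvv' := hfi v (by simp)
  revert hu hl0 heq hvv' hfl hfi
  generalize free [p, q, v] = v'
  generalize top5 p q = u₀
  intro hu hfl hfi hl0 heq hvv'
  have huu : Inc u u₀ := incomp_of_length (hl.lu.trans hl0.lu.symm) hu
  have hvu : Inc v u₀ := by
    rcases hl0.pre with h | h
    · exact inc_of_prefix hl.ip h (by rw [hl0.lu, hl.lv]; omega)
    · exact inc_of_prefix hl.iq h (by rw [hl0.lu, hl.lv]; omega)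
  have hv'u : Inc v' u := by
    rcases hl.pre with h | h
    · exact inc_of_prefix hl0.ip h (by rw [hl.lu, hl0.lv]; omega)
    · exact inc_of_prefix hl0.iq h (by rw [hl.lu, hl0.lv]; omega)
  have au : Acts u v u₀ := Or.inr (Or.inr ⟨huu, hvu⟩)
  have av : Acts u v v' := Or.inr (Or.inr ⟨hv'u.symm, hvv'.symm⟩)
  have eu : act u v u₀ = u₀ := act_fix huu hvu
  have ev : act u v v' = v' := act_fix hv'u.symm hvv'.symm
  have aP := hl.acts hb
  have aQ := hl.symm.acts hb.symm
  have cP : act u₀ v' (act u v p) = act u v (act u₀ v' p) := by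
    have := act_conj hl.inc hl0.inc au av aP (hl0.acts hb)
    rwa [eu, ev] at this
  have cQ : act u₀ v' (act u v q) = act u v (act u₀ v' q) := by
    have := act_conj hl.inc hl0.inc au av aQ (hl0.symm.acts hb.symm)
    rwa [eu, ev] at this
  -- the old reduction still applies afterwards
  have hi : ∀ {w w' : List Bool}, Low u v w w' → Pair w w' → Inc v' w →
      Inc v' (act u v w) ∧ (u₀ <+: w → u₀ <+: act u v w) := by
    intro w w' hlw hbw hiw
    obtain ⟨hu', -, r, -, e'⟩ | ⟨hv', -⟩ | ⟨-, -, e'⟩ := act_cases hlw.inc (hlw.acts hbw)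
    · rw [e']
      refine ⟨by simpa using hvv'.append [] r, fun h => ?_⟩
      exact absurd ((List.prefix_of_prefix_length_le hu' h (by rw [hl.lu, hl0.lu])).eq_of_length
        (hl.lu.trans hl0.lu.symm)) hu
    · exact absurd hv' hlw.ip.1
    · rw [e']; exact ⟨hiw, id⟩
  have iP := hi hl hb hl0.ip
  have iQ := hi hl.symm hb.symm hl0.iq
  have hlσ : Low u₀ v' (act u v p) (act u v q) :=
    ⟨hl0.lu, hl0.lv, iP.1, iQ.1, hl0.pre.imp iP.2 iQ.2⟩
  have hbσ := hl.pair hb
  have t1 := hl.tot_lt hb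
  have t2 := hl0.tot_lt hb
  have t3 := hlσ.tot_lt hbσ
  have hX := ih _ _ u v (hl0.pair hb) hl.sig (acts_trans hl.inc hl0.inc au av aP (hl0.acts hb))
    (acts_trans hl.inc hl0.inc au av aQ (hl0.symm.acts hb.symm)) (by omega)
    (by rw [← cP, ← cQ]; omega)
  rw [← cP, ← cQ] at hX
  have hY := ih _ _ u₀ v' hbσ hl0.sig (hlσ.acts hbσ) (hlσ.symm.acts hbσ.symm) (by omega) (by omega)
  have hr := econj hl.sig.isGen hl0.sig.isGen au av (by rw [eu, ev]; exact hl0.sig.isGen)
  rw [eu, ev] at hr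
  rw [heq]
  refine conj_back hl.sig.mul_self ?_
  rw [conj_step hl.sig.mul_self hr hX]
  exact (conj_back hl0.sig.mul_self hY).symm

end Vale.Agent.P193.Bh.V
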